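import Vale.Agent.P084.Bad.Dir

/-!
P084 (Tingley's problem), library: chord comparisons which survive further perturbations of the
chord, so that comparisons at several scales hold at one chord.
-/

namespace Vale.Agent.P084.Orbit

open Filter Topology Metric

variable {X Y : Type*} [NormedAddCommGroup X] [NormedSpace ℝ X] [NormedAddCommGroup Y]
  [NormedSpace ℝ Y]

/-- Seen from `x`, the point `s` lies beyond `v` up to `δ`. -/
def Beyond (x : X) (δ : ℝ) (v s : X) : Prop := ‖x - v‖ + ‖v - s‖ ≤ ‖x - s‖ + δ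

omit [NormedSpace ℝ X] in
lemma Beyond.trans {x v s s' : X} {δ δ' : ℝ} (h : Beyond x δ v s) (h' : Beyond x δ' s s') :
    Beyond x (δ + δ') v s' := by
  have := norm_sub_le_norm_sub_add_norm_sub v s s'
  unfold Beyond at *
  linarith

omit [NormedSpace ℝ X] in
lemma Beyond.mono {x v s : X} {δ δ' : ℝ} (h : Beyond x δ v s) (hd : δ ≤ δ') :
    Beyond x δ' v s := by
  unfold Beyond at *
  linarith

omit [NormedSpace ℝ X] in
lemma Beyond.nonneg {x v s : X} {δ : ℝ} (h : Beyond x δ v s) : 0 ≤ δ := by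
  have := norm_sub_le_norm_sub_add_norm_sub x v s
  unfold Beyond at h
  linarith

lemma Beyond.apply {x v s : X} {δ : ℝ} (h : Beyond x δ v s) {p : X →L[ℝ] ℝ}
    (hp : Supp (x - s) p) : ‖x - v‖ - δ ≤ p (x - v) := by
  have h1 := hp.le (v - s)
  have e : p (x - v) + p (v - s) = p (x - s) := by rw [← map_add, sub_add_sub_cancel]
  rw [hp.2] at e
  unfold Beyond at h
  linarith

omit [NormedSpace ℝ X] in
lemma beyond_refl (x s : X) : Beyond x 0 s s := by simp [Beyond]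

/-- A chord near a given one, through a point at which two second differences are small. -/
lemma exists_stage {x w β₁ β₂ : X} {δ B : ℝ} (hx : ‖x‖ = 1) (hw : ‖w‖ = 1) (hB : 0 < B)
    (h₁ : ‖β₁‖ ≤ B) (h₂ : ‖β₂‖ ≤ B) (hBδ : 2 * B ≤ δ) (hδ : δ ≤ 1 / 4) :
    ∃ z s, ‖s‖ = 1 ∧ Beyond x 0 z s ∧ Beyond x (6 * δ) w s ∧
      sd (x - z) β₁ + sd (x - z) β₂ ≤ 16 * B ^ 2 / δ := by
  obtain ⟨P, hP, hsd⟩ := exists_sd_small (x - (1 - 2 * δ) • w) β₁ β₂ (δ := δ) (B := B) hB h₁ h₂ hBδ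
  set z := x - P with hz
  have hzw : ‖z - (1 - 2 * δ) • w‖ ≤ δ := by
    rw [norm_sub_rev] at hP
    rwa [hz, show x - P - (1 - 2 * δ) • w = x - (1 - 2 * δ) • w - P by abel]
  have hzlt : ‖z‖ < 1 := by
    have h := norm_sub_norm_le z ((1 - 2 * δ) • w)
    rw [norm_smul, hw, Real.norm_of_nonneg (by linarith), mul_one] at h
    linarith
  have hzw' : ‖z - w‖ ≤ 3 * δ := by
    have h := norm_add_le (z - (1 - 2 * δ) • w) ((-2 * δ) • w)
    rw [show z - (1 - 2 * δ) • w + (-2 * δ) • w = z - w by module, norm_smul, hw, mul_one,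
      Real.norm_eq_abs, abs_of_nonpos (by linarith)] at h
    linarith
  obtain ⟨t, ht, hts⟩ := exists_beyond hx hzlt
  set s := x - t • (x - z) with hs
  have e : ‖x - z‖ + ‖z - s‖ = ‖x - s‖ := by
    rw [show x - s = t • (x - z) by rw [hs]; module,
      show z - s = (t - 1) • (x - z) by rw [hs]; module, norm_smul,
      norm_smul, Real.norm_of_nonneg (by linarith), Real.norm_of_nonneg (by linarith)]
    ring
  refine ⟨z, s, hts, by simp [Beyond, e], ?_, by rwa [hz, sub_sub_cancel]⟩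
  have h1 := norm_sub_le_norm_sub_add_norm_sub x z w
  have h2 := norm_sub_le_norm_sub_add_norm_sub w z s
  rw [norm_sub_rev w z] at h2
  unfold Beyond
  linarith

namespace PIso

variable (f : PIso X Y)

lemma beyond_G {x v s : X} {δ : ℝ} (hx : ‖x‖ = 1) (hv : ‖v‖ = 1) (hs : ‖s‖ = 1) :
    Beyond (f.G x) δ (f.G v) (f.G s) ↔ Beyond x δ v s := by
  rw [Beyond, Beyond, f.dist_unit hx hv, f.dist_unit hv hs, f.dist_unit hx hs]

/-- One-sided comparison at a chord passing nearly through a smooth point. -/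
lemma chord_upper {x c z s : X} {ε : ℝ} (hx : ‖x‖ = 1) (hs : ‖s‖ = 1) (hc : ‖c‖ ≤ 1 / 2)
    (hz : Beyond x ε z s) {p : X →L[ℝ] ℝ} {q : Y →L[ℝ] ℝ} (hp : Supp (x - s) p)
    (hq : Supp (f.G x - f.G s) q) :
    q (f.G (x + c) - f.G x) ≤ p c + (‖x + c‖ - 1) * (q (f.G x) - p x) +
      4 * sd (x - z) (‖x + c‖⁻¹ • (c - (‖x + c‖ - 1) • x)) + 4 * ε := by
  set n := ‖x + c‖ with hn
  have hn1 : 1 / 2 ≤ n := by
    have := norm_sub_norm_le x (-c)
    rw [sub_neg_eq_add, norm_neg, hx] at this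
    linarith
  have hn2 : n ≤ 2 := by
    have := norm_add_le x c
    rw [hx] at this
    linarith
  set b := c - (n - 1) • x with hb
  set β := n⁻¹ • b with hβ
  obtain ⟨p₁, hp₁⟩ := exists_supp (x - z)
  have h1 := hq.le (f.G (x + c) - n • f.G s)
  rw [map_sub, map_smul, smul_eq_mul, f.key (x + c) s hs] at h1
  have h2 : ‖x + c - n • s‖ ≤ ‖n • (x - z) + b‖ + n * ‖z - s‖ := by
    rw [show x + c - n • s = (n • (x - z) + b) + n • (z - s) by rw [hb]; module]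
    refine (norm_add_le _ _).trans_eq ?_
    rw [norm_smul n (z - s), Real.norm_of_nonneg (by linarith)]
  have h3 := norm_smul_add_le_sd hp₁ (n := n) (by linarith) b
  rw [← hβ] at h3
  -- the supporting functional of the smooth point may be replaced by that of the chord
  have h4 := norm_add_le_sd hp₁ (-β)
  have h5 := hp.le ((x - z) + -β)
  have h6 := hp.le (z - s)
  have e1 : p (x - z) + p (z - s) = ‖x - s‖ := by rw [← map_add, sub_add_sub_cancel, hp.2]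
  have e2 : sd (x - z) (-β) = sd (x - z) β := by
    simp only [sd, sub_neg_eq_add, ← sub_eq_add_neg]
    ring
  have e3 : n * p₁ β = p₁ b := by
    rw [hβ, map_smul, smul_eq_mul, ← mul_assoc, mul_inv_cancel₀ (by linarith), one_mul]
  have e4 : n * p β = p c - (n - 1) * p x := by
    rw [hβ, map_smul, smul_eq_mul, ← mul_assoc, mul_inv_cancel₀ (by linarith), one_mul, hb,
      map_sub, map_smul, smul_eq_mul]
  rw [map_add, map_neg] at h5
  rw [map_neg, e2] at h4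
  have hz' : ‖x - z‖ + ‖z - s‖ ≤ ‖x - s‖ + ε := hz
  have h7 : p₁ β ≤ p β + sd (x - z) β + ε := by linarith
  have h8 := mul_le_mul_of_nonneg_left h7 (by linarith : 0 ≤ n)
  have h9 := mul_le_mul_of_nonneg_left hz' (by linarith : 0 ≤ n)
  have h10 := mul_le_mul_of_nonneg_right hn2 (sd_nonneg (x - z) β)
  have h11 := mul_le_mul_of_nonneg_right hn2 hz.nonneg
  have hl : q (f.G x) - q (f.G s) = ‖x - s‖ := by rw [← map_sub, hq.2, f.dist_unit hx hs]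
  rw [map_sub]
  linear_combination h1 + h2 + h3 + h8 + h9 + 2 * h10 + 2 * h11 + e4 - e3 - n * hl

/-- The mismatch of a pair of increments at a chord. -/
def res (x c₁ c₂ : X) (p : X →L[ℝ] ℝ) (q : Y →L[ℝ] ℝ) : ℝ :=
  q (f.G (x + c₁) - f.G x) + q (f.G (x + c₂) - f.G x) - (p c₁ + p c₂) -
    (‖x + c₁‖ + ‖x + c₂‖ - 2) * (q (f.G x) - p x)

/-- The upper comparison can be arranged near every chord, stably. -/
lemma stage_upper {x c₁ c₂ w : X} {a δ : ℝ} (hx : ‖x‖ = 1) (hw : ‖w‖ = 1) (ha : 0 < a)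
    (h₁ : ‖c₁‖ ≤ a) (h₂ : ‖c₂‖ ≤ a) (haδ : 8 * a ≤ δ) (hδ : δ ≤ 1 / 4) :
    ∃ s, ‖s‖ = 1 ∧ Beyond x (6 * δ) w s ∧ ∀ s', ‖s'‖ = 1 → Beyond x (a ^ 2) s s' →
      ∀ p q, Supp (x - s') p → Supp (f.G x - f.G s') q → f.res x c₁ c₂ p q ≤ 1026 * a ^ 2 / δ := by
  have hb : ∀ c : X, ‖c‖ ≤ a → ‖‖x + c‖⁻¹ • (c - (‖x + c‖ - 1) • x)‖ ≤ 4 * a := by
    intro c hc
    have h := abs_norm_sub_norm_le (x + c) x
    rw [hx, add_sub_cancel_left] at h
    have hn : (1 : ℝ) / 2 ≤ ‖x + c‖ := by linarith [(abs_le.1 h).1]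
    rw [norm_smul, norm_inv, norm_norm]
    have hi : ‖x + c‖⁻¹ ≤ 2 := by rw [inv_le_comm₀ (by linarith) two_pos]; linarith
    calc _ ≤ 2 * (2 * a) := by
          refine mul_le_mul hi ((norm_sub_le _ _).trans ?_) (norm_nonneg _) two_pos.le
          rw [norm_smul, hx, mul_one, Real.norm_eq_abs]
          linarith
      _ = 4 * a := by ring
  obtain ⟨z, s, hs, hzs, hws, hsd⟩ := exists_stage hx hw (by linarith : 0 < 4 * a)
    (hb c₁ h₁) (hb c₂ h₂) (by linarith) hδ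
  refine ⟨s, hs, hws, fun s' hs' hss p q hp hq => ?_⟩
  have hz' : Beyond x (a ^ 2) z s' := by simpa using hzs.trans hss
  have k₁ := f.chord_upper hx hs' (by linarith : ‖c₁‖ ≤ 1 / 2) hz' hp hq
  have k₂ := f.chord_upper hx hs' (by linarith : ‖c₂‖ ≤ 1 / 2) hz' hp hq
  have hdiv : a ^ 2 ≤ a ^ 2 / δ / 4 := by
    rw [le_div_iff₀ (by norm_num : (0 : ℝ) < 4), le_div_iff₀ (by linarith)]
    have := mul_le_mul_of_nonneg_left hδ (sq_nonneg a)
    linarith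
  have e : 16 * (4 * a) ^ 2 / δ = 256 * (a ^ 2 / δ) := by ring
  unfold res
  rw [e] at hsd
  rw [mul_div_assoc]
  linarith

/-- The lower comparison can be arranged near every chord, stably. -/
lemma stage_lower {x c₁ c₂ w : X} {a δ : ℝ} (hx : ‖x‖ = 1) (hw : ‖w‖ = 1) (ha : 0 < a)
    (h₁ : ‖c₁‖ ≤ a) (h₂ : ‖c₂‖ ≤ a) (haδ : 24 * a ≤ δ) (hδ : δ ≤ 1 / 4) :
    ∃ s, ‖s‖ = 1 ∧ Beyond x (6 * δ) w s ∧ ∀ s', ‖s'‖ = 1 → Beyond x (a ^ 2) s s' →
      ∀ p q, Supp (x - s') p → Supp (f.G x - f.G s') q →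
        -(9234 * a ^ 2 / δ) ≤ f.res x c₁ c₂ p q := by
  have hb : ∀ c : X, ‖c‖ ≤ a → ‖f.G (x + c) - f.G x‖ ≤ 3 * a := fun c hc => by
    have := f.norm_G_sub_le (x + c) x
    rw [add_sub_cancel_left] at this
    linarith
  have hy : ‖f.G x‖ = 1 := by rw [f.norm_G, hx]
  have hw' : ‖f.G w‖ = 1 := by rw [f.norm_G, hw]
  obtain ⟨u, hu, hwu, h⟩ := f.symm.stage_upper hy hw' (by linarith : 0 < 3 * a)
    (hb c₁ h₁) (hb c₂ h₂) (by linarith) hδ
  have hs : ‖f.Gi u‖ = 1 := by rw [f.norm_Gi, hu]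
  refine ⟨f.Gi u, hs, (f.beyond_G hx hw hs).1 (by rwa [f.G_Gi]), fun s' hs' hss p q hp hq => ?_⟩
  have hss' := ((f.beyond_G hx hs hs').2 hss).mono (show a ^ 2 ≤ (3 * a) ^ 2 by nlinarith)
  rw [f.G_Gi] at hss'
  have h' := h (f.G s') (by rw [f.norm_G, hs']) hss' q p hq (by
    simpa only [symm_G, f.Gi_G] using hp)
  simp only [res, symm_G, f.Gi_G, add_sub_cancel, f.norm_G, add_sub_cancel_left] at h' ⊢
  have e : 1026 * (3 * a) ^ 2 / δ = 9234 * a ^ 2 / δ := by ring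
  rw [e] at h'
  linarith

/-- A property of pairs of chord functionals holds at chords near every chord, stably. -/
def Avail (x : X) (P : (X →L[ℝ] ℝ) → (Y →L[ℝ] ℝ) → Prop) : Prop :=
  ∀ δ, 0 < δ → ∃ ε, 0 < ε ∧ ∀ w, ‖w‖ = 1 → ∃ s, ‖s‖ = 1 ∧ Beyond x δ w s ∧
    ∀ s', ‖s'‖ = 1 → Beyond x ε s s' → ∀ p q, Supp (x - s') p → Supp (f.G x - f.G s') q → P p q

variable {f}

lemma Avail.mono {x : X} {P Q : (X →L[ℝ] ℝ) → (Y →L[ℝ] ℝ) → Prop} (h : f.Avail x P)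
    (hPQ : ∀ p q, P p q → Q p q) : f.Avail x Q := fun δ hδ => by
  obtain ⟨ε, hε, hs⟩ := h δ hδ
  refine ⟨ε, hε, fun w hw => ?_⟩
  obtain ⟨s, hs1, hs2, hs3⟩ := hs w hw
  exact ⟨s, hs1, hs2, fun s' a b p q c d => hPQ p q (hs3 s' a b p q c d)⟩

/-- Two properties can be arranged at one chord. -/
lemma Avail.and {x : X} {P Q : (X →L[ℝ] ℝ) → (Y →L[ℝ] ℝ) → Prop} (hP : f.Avail x P)
    (hQ : f.Avail x Q) : f.Avail x (fun p q => P p q ∧ Q p q) := fun δ hδ => by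
  obtain ⟨ε₁, hε₁, h₁⟩ := hP (δ / 2) (by linarith)
  obtain ⟨ε₂, hε₂, h₂⟩ := hQ (min (δ / 2) (ε₁ / 2)) (lt_min (by linarith) (by linarith))
  refine ⟨min ε₂ (ε₁ / 2), lt_min hε₂ (by linarith), fun w hw => ?_⟩
  obtain ⟨s₁, hs₁, hb₁, k₁⟩ := h₁ w hw
  obtain ⟨s₂, hs₂, hb₂, k₂⟩ := h₂ s₁ hs₁
  refine ⟨s₂, hs₂, (hb₁.trans hb₂).mono (by linarith [min_le_left (δ / 2) (ε₁ / 2)]),
    fun s' hs' hb p q hp hq => ⟨k₁ s' hs' ((hb₂.trans hb).mono ?_) p q hp hq,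
      k₂ s' hs' (hb.mono (min_le_left _ _)) p q hp hq⟩⟩
  linarith [min_le_right (δ / 2) (ε₁ / 2), min_le_right ε₂ (ε₁ / 2)]

/-- The same property seen from the target. -/
lemma Avail.symm {x : X} {P : (X →L[ℝ] ℝ) → (Y →L[ℝ] ℝ) → Prop} (hx : ‖x‖ = 1)
    (h : f.Avail x P) : f.symm.Avail (f.G x) (fun q p => P p q) := fun δ hδ => by
  obtain ⟨ε, hε, hs⟩ := h δ hδ
  refine ⟨ε, hε, fun w hw => ?_⟩
  have hw' : ‖f.Gi w‖ = 1 := by rw [f.norm_Gi, hw]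
  obtain ⟨s, hs1, hs2, hs3⟩ := hs (f.Gi w) hw'
  refine ⟨f.G s, by rw [f.norm_G, hs1], ?_, fun s' hs' hb q p hq hp => ?_⟩
  · simpa only [f.G_Gi] using (f.beyond_G hx hw' hs1).2 hs2
  · have hs'' : ‖f.Gi s'‖ = 1 := by rw [f.norm_Gi, hs']
    refine hs3 (f.Gi s') hs'' ((f.beyond_G hx hs1 hs'').1 (by rwa [f.G_Gi])) p q ?_ ?_
    · simpa only [symm_G, f.Gi_G] using hp
    · rwa [f.G_Gi]

variable (f)

/-- Limits of normalised increments obey the comparison at chords near every chord. -/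
lemma avail_lim {x : X} (hx : ‖x‖ = 1) (c₁ c₂ : ℕ → X) (r a : ℕ → ℝ) {V : Y} {A : X} {κ : ℝ}
    (hr : ∀ᶠ n in atTop, 0 < r n ∧ 0 < a n) (h₁ : ∀ n, ‖c₁ n‖ ≤ a n) (h₂ : ∀ n, ‖c₂ n‖ ≤ a n)
    (ha : Tendsto a atTop (𝓝 0)) (hra : Tendsto (fun n => a n ^ 2 / r n) atTop (𝓝 0))
    (hV : Tendsto (fun n => (r n)⁻¹ • ((f.G (x + c₁ n) - f.G x) + (f.G (x + c₂ n) - f.G x)))
      atTop (𝓝 V))
    (hA : Tendsto (fun n => (r n)⁻¹ • (c₁ n + c₂ n)) atTop (𝓝 A))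
    (hκ : Tendsto (fun n => (r n)⁻¹ * (‖x + c₁ n‖ + ‖x + c₂ n‖ - 2)) atTop (𝓝 κ))
    {e : ℝ} (he : 0 < e) :
    f.Avail x (fun p q => |q V - p A - κ * (q (f.G x) - p x)| ≤ e) := by
  set Vn := fun n => (r n)⁻¹ • ((f.G (x + c₁ n) - f.G x) + (f.G (x + c₂ n) - f.G x))
  set An := fun n => (r n)⁻¹ • (c₁ n + c₂ n)
  set κn := fun n => (r n)⁻¹ * (‖x + c₁ n‖ + ‖x + c₂ n‖ - 2)
  have hgood : ∀ δ : ℝ, 0 < δ → ∀ᶠ n in atTop, (0 < r n ∧ 0 < a n) ∧ 24 * a n ≤ δ ∧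
      9234 * a n ^ 2 / δ ≤ e / 4 * r n ∧ ‖Vn n - V‖ ≤ e / 4 ∧ ‖An n - A‖ ≤ e / 4 ∧
      |κn n - κ| ≤ e / 8 := by
    intro δ hδ
    filter_upwards [hr, ha.eventually_le_const (by positivity : (0 : ℝ) < δ / 24),
      hra.eventually_le_const (by positivity : (0 : ℝ) < e / 4 * δ / 9234),
      (tendsto_iff_norm_sub_tendsto_zero.1 hV).eventually_le_const
        (by positivity : (0 : ℝ) < e / 4),
      (tendsto_iff_norm_sub_tendsto_zero.1 hA).eventually_le_const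
        (by positivity : (0 : ℝ) < e / 4),
      (tendsto_iff_norm_sub_tendsto_zero.1 hκ).eventually_le_const
        (by positivity : (0 : ℝ) < e / 8)] with n h0 hn1 hn2 hn3 hn4 hn5
    refine ⟨h0, by linarith, ?_, hn3, hn4, by rwa [← Real.norm_eq_abs]⟩
    rw [div_le_iff₀ h0.1] at hn2
    rw [div_le_iff₀ hδ]
    linarith
  have main : ∀ n, 0 < r n → ‖Vn n - V‖ ≤ e / 4 → ‖An n - A‖ ≤ e / 4 → |κn n - κ| ≤ e / 8 →
      ∀ s, ‖s‖ = 1 → ∀ p q, Supp (x - s) p → Supp (f.G x - f.G s) q →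
        |(q V - p A - κ * (q (f.G x) - p x)) - (r n)⁻¹ * f.res x (c₁ n) (c₂ n) p q|
          ≤ 3 * (e / 4) := by
    intro n _ hn3 hn4 hn5 s hs p q hp hq
    have e0 : (r n)⁻¹ * f.res x (c₁ n) (c₂ n) p q =
        q (Vn n) - p (An n) - κn n * (q (f.G x) - p x) := by
      simp only [Vn, An, κn, res, map_smul, map_add, smul_eq_mul]
      ring
    rw [e0]
    have a1 := hq.le (Vn n - V)
    have a2 := hq.ge (Vn n - V)
    have a3 := hp.le (An n - A)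
    have a4 := hp.ge (An n - A)
    have a5 : |(κn n - κ) * (q (f.G x) - p x)| ≤ e / 8 * 2 := by
      rw [abs_mul]
      exact mul_le_mul hn5 (f.abs_delta_le hx hp hq) (abs_nonneg _) (by linarith)
    rw [map_sub] at a1 a2 a3 a4
    have := abs_le.1 a5
    rw [abs_le]
    constructor <;> linarith
  have up : f.Avail x (fun p q => q V - p A - κ * (q (f.G x) - p x) ≤ e) := fun δ hδ => by
    set δ' : ℝ := min (δ / 6) (1 / 4)
    have hδ' : 0 < δ' := lt_min (by linarith) (by norm_num)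
    obtain ⟨n, ⟨hrn, han⟩, hn1, hn2, hn3, hn4, hn5⟩ := (hgood δ' hδ').exists
    refine ⟨a n ^ 2, by positivity, fun w hw => ?_⟩
    obtain ⟨s, hs, hb, h⟩ := f.stage_upper hx hw han (h₁ n) (h₂ n) (by linarith) (min_le_right _ _)
    refine ⟨s, hs, hb.mono (by linarith [min_le_left (δ / 6) (1 / 4 : ℝ)]),
      fun s' hs' hb' p q hp hq => ?_⟩
    have hk := h s' hs' hb' p q hp hq
    have hm := abs_le.1 (main n hrn hn3 hn4 hn5 s' hs' p q hp hq)
    have h1026 : 1026 * a n ^ 2 / δ' ≤ 9234 * a n ^ 2 / δ' := by gcongr; norm_num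
    have : (r n)⁻¹ * f.res x (c₁ n) (c₂ n) p q ≤ e / 4 := by
      rw [inv_mul_le_iff₀ hrn]; linarith
    linarith
  have low : f.Avail x (fun p q => -e ≤ q V - p A - κ * (q (f.G x) - p x)) := fun δ hδ => by
    set δ' : ℝ := min (δ / 6) (1 / 4)
    have hδ' : 0 < δ' := lt_min (by linarith) (by norm_num)
    obtain ⟨n, ⟨hrn, han⟩, hn1, hn2, hn3, hn4, hn5⟩ := (hgood δ' hδ').exists
    refine ⟨a n ^ 2, by positivity, fun w hw => ?_⟩
    obtain ⟨s, hs, hb, h⟩ := f.stage_lower hx hw han (h₁ n) (h₂ n) hn1 (min_le_right _ _)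
    refine ⟨s, hs, hb.mono (by linarith [min_le_left (δ / 6) (1 / 4 : ℝ)]),
      fun s' hs' hb' p q hp hq => ?_⟩
    have hk := h s' hs' hb' p q hp hq
    have hm := abs_le.1 (main n hrn hn3 hn4 hn5 s' hs' p q hp hq)
    have : -(e / 4) ≤ (r n)⁻¹ * f.res x (c₁ n) (c₂ n) p q := by
      rw [le_inv_mul_iff₀ hrn]; linarith
    linarith
  exact (up.and low).mono fun p q h => abs_le.2 ⟨h.2, h.1⟩

end PIso

end Vale.Agent.P084.Orbit
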