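import Vale.Agent.P084.Orbit.Deriv

/-!
P084 (Tingley's problem), library: one-sided derivatives of a norm and of the homogeneous
extension of a surjective isometry of unit spheres exist at every point of every Banach space.
-/

namespace Vale.Agent.P084.Orbit

open Filter Topology Metric

section Norm

variable {Z : Type*} [NormedAddCommGroup Z] [NormedSpace ℝ Z]

/-- Dyadic difference quotients of the norm. -/
noncomputable def nq (x h : Z) (n : ℕ) : ℝ :=
  (2 : ℝ) ^ n * (‖x + ((2 : ℝ) ^ n)⁻¹ • h‖ - ‖x‖)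

/-- The one-sided directional derivative of the norm. -/
noncomputable def dirN (x h : Z) : ℝ := ⨅ n, nq x h n

lemma abs_nq_sub_le (x h k : Z) (n : ℕ) : |nq x h n - nq x k n| ≤ ‖h - k‖ := by
  have hc : (0 : ℝ) < 2 ^ n := by positivity
  rw [nq, nq, ← mul_sub, abs_mul, abs_of_pos hc, sub_sub_sub_cancel_right]
  refine (mul_le_mul_of_nonneg_left (abs_norm_sub_norm_le _ _) hc.le).trans_eq ?_
  rw [add_sub_add_left_eq_sub, ← smul_sub, norm_smul, norm_inv, Real.norm_of_nonneg hc.le]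
  field_simp

lemma nq_zero (x : Z) (n : ℕ) : nq x 0 n = 0 := by simp [nq]

lemma abs_nq_le (x h : Z) (n : ℕ) : |nq x h n| ≤ ‖h‖ := by
  simpa [nq_zero] using abs_nq_sub_le x h 0 n

lemma antitone_nq (x h : Z) : Antitone (nq x h) := antitone_nat_of_succ_le fun n => by
  have hc : (0 : ℝ) < 2 ^ n := by positivity
  have h1 := norm_add_le (x + ((2 : ℝ) ^ n)⁻¹ • h) x
  rw [show x + ((2 : ℝ) ^ n)⁻¹ • h + x = (2 : ℝ) • (x + ((2 : ℝ) ^ (n + 1))⁻¹ • h) by
    rw [pow_succ, mul_inv]; module, norm_smul, Real.norm_two] at h1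
  rw [nq, nq, pow_succ, mul_assoc]
  rw [pow_succ] at h1
  exact mul_le_mul_of_nonneg_left (by linarith) hc.le

lemma bddBelow_nq (x h : Z) : BddBelow (Set.range (nq x h)) :=
  ⟨-‖h‖, by rintro _ ⟨n, rfl⟩; exact (abs_le.1 (abs_nq_le x h n)).1⟩

lemma dirN_le (x h : Z) (n : ℕ) : dirN x h ≤ nq x h n := ciInf_le (bddBelow_nq x h) n

lemma tendsto_nq (x h : Z) : Tendsto (nq x h) atTop (𝓝 (dirN x h)) :=
  tendsto_atTop_ciInf (antitone_nq x h) (bddBelow_nq x h)

lemma dirN_zero (x : Z) : dirN x 0 = 0 :=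
  tendsto_nhds_unique (tendsto_nq x 0) (by simp [show nq x 0 = fun _ => 0 from funext (nq_zero x)])

lemma abs_dirN_sub_le (x h k : Z) : |dirN x h - dirN x k| ≤ ‖h - k‖ :=
  le_of_tendsto ((tendsto_nq x h).sub (tendsto_nq x k)).abs
    (Eventually.of_forall (abs_nq_sub_le x h k))

lemma abs_dirN_le (x h : Z) : |dirN x h| ≤ ‖h‖ := by
  simpa [dirN_zero] using abs_dirN_sub_le x h 0

lemma continuous_dirN (x : Z) : Continuous (dirN x) :=
  (LipschitzWith.of_dist_le_mul (K := 1) fun h k => by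
    simpa [Real.dist_eq, dist_eq_norm] using abs_dirN_sub_le x h k).continuous

lemma dirN_self (x : Z) : dirN x x = ‖x‖ := by
  refine tendsto_nhds_unique (tendsto_nq x x) (tendsto_const_nhds.congr fun n => ?_)
  rw [nq, show x + ((2 : ℝ) ^ n)⁻¹ • x = (1 + ((2 : ℝ) ^ n)⁻¹) • x by module, norm_smul,
    Real.norm_of_nonneg (by positivity)]
  field_simp
  ring

lemma dirN_add_neg (x h : Z) : 0 ≤ dirN x h + dirN x (-h) := by
  refine ge_of_tendsto ((tendsto_nq x h).add (tendsto_nq x (-h)))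
    (Eventually.of_forall fun n => ?_)
  have := sd_nonneg x (((2 : ℝ) ^ n)⁻¹ • h)
  rw [nq, nq, ← mul_add, smul_neg, ← sub_eq_add_neg]
  refine mul_nonneg (by positivity) ?_
  unfold sd at this
  linarith

lemma defect_le_sd' (x a : Z) : ‖x + a‖ - ‖x‖ - dirN x a ≤ sd x a := by
  have h1 := dirN_add_neg x a
  have h2 := dirN_le x (-a) 0
  simp only [nq, pow_zero, inv_one, one_smul, one_mul, ← sub_eq_add_neg] at h2
  unfold sd
  linarith

lemma exists_lt_of_dirN_neg {x h : Z} (hd : dirN x h < 0) :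
    ∃ t : ℝ, 0 < t ∧ ‖x + t • h‖ < ‖x‖ := by
  obtain ⟨n, hn⟩ := exists_lt_of_ciInf_lt hd
  refine ⟨((2 : ℝ) ^ n)⁻¹, by positivity, ?_⟩
  rw [nq] at hn
  have hc : (0 : ℝ) < 2 ^ n := by positivity
  by_contra hcon
  push Not at hcon
  have := mul_nonneg hc.le (sub_nonneg.2 hcon)
  linarith

end Norm

variable {X Y : Type*} [NormedAddCommGroup X] [NormedSpace ℝ X] [NormedAddCommGroup Y]
  [NormedSpace ℝ Y]

namespace PIso

variable (f : PIso X Y)

/-- Distances change by at most twice the difference of the norms. -/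
lemma abs_norm_G_sub (v w : X) :
    |‖f.G v - f.G w‖ - ‖v - w‖| ≤ 2 * |‖v‖ - ‖w‖| := by
  rcases eq_or_ne w 0 with rfl | hw
  · simp [f.G_zero, f.norm_G]
  set u := ‖w‖⁻¹ • w with hu
  have hu1 : ‖u‖ = 1 := norm_smul_inv_norm hw
  have ew : w = ‖w‖ • u := by simp [hu, smul_smul, hw]
  have eG : f.G w = ‖w‖ • f.G u := by rw [← f.G_smul _ (norm_nonneg _), ← ew]
  have h1 := abs_norm_sub_norm_le (f.G v - f.G w) (f.G v - ‖v‖ • f.G u)
  have h2 := abs_norm_sub_norm_le (v - ‖v‖ • u) (v - w)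
  have e1 : f.G v - f.G w - (f.G v - ‖v‖ • f.G u) = (‖v‖ - ‖w‖) • f.G u := by rw [eG]; module
  have e2 : v - ‖v‖ • u - (v - w) = (‖w‖ - ‖v‖) • u := by
    linear_combination (norm := module) ew
  rw [e1, norm_smul, f.norm_G, hu1, mul_one, Real.norm_eq_abs, f.key v u hu1] at h1
  rw [e2, norm_smul, hu1, mul_one, Real.norm_eq_abs, abs_sub_comm ‖w‖] at h2
  exact (abs_sub_le _ _ _).trans (by linarith)

/-- The one-sided derivative of the extension. -/
noncomputable def Ld (x h : X) : Y := limUnder atTop (f.dq x h)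

variable {x : X}

lemma dist_dq_succ' (hx : ‖x‖ = 1) {a : X} (ha : ‖a‖ ≤ 1 / 65536) (n : ℕ) :
    dist (f.dq x a n) (f.dq x a (n + 1)) ≤
      C0 * (nq x a n + 4 * ‖a‖ ^ 2 / (2 : ℝ) ^ n) -
        C0 * (nq x a (n + 1) + 4 * ‖a‖ ^ 2 / (2 : ℝ) ^ (n + 1)) := by
  set c : ℝ := (2 : ℝ) ^ n with hc
  have hc1 : 1 ≤ c := one_le_pow₀ (by norm_num)
  have hc0 : 0 < c := by linarith
  set b := (c * 2)⁻¹ • a with hb
  have hb2 : c⁻¹ • a = b + b := by rw [hb, ← two_smul ℝ, smul_smul]; congr 1; field_simp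
  have hbn : ‖b‖ = ‖a‖ / (c * 2) := by
    rw [hb, norm_smul, norm_inv, Real.norm_of_nonneg (by positivity)]; ring
  have hbs : ‖b‖ ≤ 1 / 65536 := by
    rw [hbn]
    exact (div_le_self (norm_nonneg _) (by linarith)).trans ha
  have hz : 1 / 2 ≤ ‖x + b‖ := by
    have h := norm_sub_norm_le x (-b)
    rw [sub_neg_eq_add, norm_neg, hx] at h
    linarith
  have h := f.norm_E2_le' hz hbs
  rw [E2, add_sub_cancel_right, add_assoc x b b, ← hb2] at h
  have e : f.dq x a n - f.dq x a (n + 1) =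
      c • (f.G (x + c⁻¹ • a) + f.G x - (2 : ℝ) • f.G (x + b)) := by
    simp only [dq, pow_succ (2 : ℝ) n, ← hc, ← hb]
    module
  rw [dist_eq_norm, e, norm_smul, Real.norm_of_nonneg hc0.le]
  refine (mul_le_mul_of_nonneg_left h hc0.le).trans ?_
  have e2 : sd (x + b) b = ‖x + c⁻¹ • a‖ + 1 - 2 * ‖x + b‖ := by
    simp only [sd, add_sub_cancel_right, hb2, hx, add_assoc]
  simp only [nq, pow_succ (2 : ℝ) n, ← hc, ← hb]
  rw [e2, hbn, hx]
  have : c * (2 * (‖a‖ / (c * 2)) ^ 2) ≤ 4 * ‖a‖ ^ 2 / c - 4 * ‖a‖ ^ 2 / (c * 2) := by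
    rw [show c * (2 * (‖a‖ / (c * 2)) ^ 2) = ‖a‖ ^ 2 / (c * 2) by field_simp,
      show 4 * ‖a‖ ^ 2 / c - 4 * ‖a‖ ^ 2 / (c * 2) = 4 * ‖a‖ ^ 2 / (c * 2) by field_simp; ring]
    gcongr
    linarith [sq_nonneg ‖a‖]
  have hC := mul_le_mul_of_nonneg_left this C0_pos.le
  linarith

lemma dist_dq_le' (hx : ‖x‖ = 1) {a : X} (ha : ‖a‖ ≤ 1 / 65536) {n m : ℕ} (h : n ≤ m) :
    dist (f.dq x a n) (f.dq x a m) ≤ C0 * (nq x a n + 4 * ‖a‖ ^ 2 / (2 : ℝ) ^ n) -
      C0 * (nq x a m + 4 * ‖a‖ ^ 2 / (2 : ℝ) ^ m) := by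
  induction m, h using Nat.le_induction with
  | base => simp
  | succ m _ ih =>
    linarith [dist_triangle (f.dq x a n) (f.dq x a m) (f.dq x a (m + 1)),
      f.dist_dq_succ' hx ha m]

lemma tendsto_pot (a : X) :
    Tendsto (fun n : ℕ => C0 * (nq x a n + 4 * ‖a‖ ^ 2 / (2 : ℝ) ^ n)) atTop
      (𝓝 (C0 * dirN x a)) := by
  have h : Tendsto (fun n : ℕ => 4 * ‖a‖ ^ 2 / (2 : ℝ) ^ n) atTop (𝓝 0) :=
    tendsto_const_nhds.div_atTop (tendsto_pow_atTop_atTop_of_one_lt one_lt_two)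
  simpa using ((tendsto_nq x a).add h).const_mul C0

variable [CompleteSpace Y]

lemma exists_tendsto_dq' (hx : ‖x‖ = 1) (a : X) : ∃ l, Tendsto (f.dq x a) atTop (𝓝 l) := by
  obtain ⟨k, hk⟩ := pow_unbounded_of_one_lt (65536 * ‖a‖ + 1) (one_lt_two : (1 : ℝ) < 2)
  have hk0 : (0 : ℝ) < 2 ^ k := by positivity
  set a' := ((2 : ℝ) ^ k)⁻¹ • a with ha'
  have hsmall : ‖a'‖ ≤ 1 / 65536 := by
    rw [ha', norm_smul, norm_inv, Real.norm_of_nonneg hk0.le, ← div_eq_inv_mul, div_le_iff₀ hk0]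
    linarith
  set P : ℕ → ℝ := fun n => C0 * (nq x a' n + 4 * ‖a'‖ ^ 2 / (2 : ℝ) ^ n) with hP
  have hcs : CauchySeq (f.dq x a') := by
    refine cauchySeq_of_le_tendsto_0 (fun n => 2 * (P n - C0 * dirN x a'))
      (fun n m N hn hm => ?_) ?_
    · have h1 := f.dist_dq_le' hx hsmall hn
      have h2 := f.dist_dq_le' hx hsmall hm
      have h3 : ∀ j, C0 * dirN x a' ≤ P j := fun j => by
        refine mul_le_mul_of_nonneg_left ?_ C0_pos.le
        exact (dirN_le x a' j).trans (le_add_of_nonneg_right (by positivity))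
      have h4 := h3 n
      have h5 := h3 m
      simp only [hP] at h4 h5 ⊢
      linarith [dist_triangle (f.dq x a' n) (f.dq x a' N) (f.dq x a' m),
        dist_comm (f.dq x a' N) (f.dq x a' n)]
    · simpa using ((tendsto_pot (x := x) a').sub_const (C0 * dirN x a')).const_mul 2
  obtain ⟨l, hl⟩ := cauchySeq_tendsto_of_complete hcs
  refine ⟨(2 : ℝ) ^ k • l, (tendsto_add_atTop_iff_nat k).1 ?_⟩
  refine (hl.const_smul ((2 : ℝ) ^ k)).congr fun n => ?_
  simp only [ha', dq, smul_smul]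
  congr 1
  · rw [pow_add, mul_comm]
  · rw [pow_add, mul_inv]

lemma tendsto_Ld (hx : ‖x‖ = 1) (h : X) : Tendsto (f.dq x h) atTop (𝓝 (f.Ld x h)) :=
  tendsto_nhds_limUnder (f.exists_tendsto_dq' hx h)

lemma Ld_est (hx : ‖x‖ = 1) {a : X} (ha : ‖a‖ ≤ 1 / 65536) :
    ‖f.G (x + a) - f.G x - f.Ld x a‖ ≤
      C0 * (‖x + a‖ - ‖x‖ - dirN x a + 4 * ‖a‖ ^ 2) := by
  have h := le_of_tendsto_of_tendsto (tendsto_const_nhds.dist (f.tendsto_Ld hx a))
    ((tendsto_pot (x := x) a).const_sub _)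
    (Eventually.of_forall fun n => f.dist_dq_le' hx ha (Nat.zero_le n))
  rw [dist_eq_norm] at h
  simp only [dq, nq, pow_zero, inv_one, one_smul, div_one, one_mul] at h
  linarith

lemma norm_Ld_sub_le (hx : ‖x‖ = 1) (h k : X) : ‖f.Ld x h - f.Ld x k‖ ≤ 3 * ‖h - k‖ := by
  refine le_of_tendsto ((f.tendsto_Ld hx h).sub (f.tendsto_Ld hx k)).norm
    (Eventually.of_forall fun n => ?_)
  simp only [dq, ← smul_sub, sub_sub_sub_cancel_right, norm_smul]
  rw [Real.norm_of_nonneg (by positivity)]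
  refine (mul_le_mul_of_nonneg_left (f.norm_G_sub_le _ _) (by positivity)).trans_eq ?_
  rw [add_sub_add_left_eq_sub, ← smul_sub, norm_smul, norm_inv,
    Real.norm_of_nonneg (by positivity)]
  field_simp

lemma continuous_Ld (hx : ‖x‖ = 1) : Continuous (f.Ld x) :=
  (LipschitzWith.of_dist_le_mul (K := 3) fun h k => by
    simpa [dist_eq_norm] using f.norm_Ld_sub_le hx h k).continuous

lemma Ld_zero (hx : ‖x‖ = 1) : f.Ld x 0 = 0 :=
  tendsto_nhds_unique (f.tendsto_Ld hx 0) (tendsto_const_nhds.congr fun n => by simp [dq])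

lemma Ld_self (hx : ‖x‖ = 1) : f.Ld x x = f.G x := by
  refine tendsto_nhds_unique (f.tendsto_Ld hx x) (tendsto_const_nhds.congr fun n => ?_)
  have h2n : (0 : ℝ) < 2 ^ n := by positivity
  rw [dq, show x + ((2 : ℝ) ^ n)⁻¹ • x = (1 + ((2 : ℝ) ^ n)⁻¹) • x by module,
    f.G_smul _ (by positivity)]
  rw [show (1 + ((2 : ℝ) ^ n)⁻¹) • f.G x - f.G x = ((2 : ℝ) ^ n)⁻¹ • f.G x by module,
    smul_smul, mul_inv_cancel₀ h2n.ne', one_smul]

/-- The derivative preserves the derivative of the norm. -/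
lemma dirN_Ld (hx : ‖x‖ = 1) (h : X) : dirN (f.G x) (f.Ld x h) = dirN x h := by
  refine tendsto_nhds_unique (tendsto_nq (f.G x) (f.Ld x h)) ?_
  have hz : Tendsto (fun n => ‖f.dq x h n - f.Ld x h‖) atTop (𝓝 0) :=
    tendsto_iff_norm_sub_tendsto_zero.1 (f.tendsto_Ld hx h)
  refine (tendsto_nq x h).congr_dist (squeeze_zero (fun _ => dist_nonneg) (fun n => ?_) hz)
  have hc : (0 : ℝ) < 2 ^ n := by positivity
  have e : nq x h n = nq (f.G x) (f.dq x h n) n := by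
    simp only [nq, dq, smul_smul, inv_mul_cancel₀ hc.ne', one_smul, add_sub_cancel, f.norm_G]
  rw [Real.dist_eq, e]
  exact abs_nq_sub_le _ _ _ n

/-- Equal norm derivatives give equal distances of the derivatives. -/
lemma norm_Ld_sub (hx : ‖x‖ = 1) {h k : X} (he : dirN x h = dirN x k) :
    ‖f.Ld x h - f.Ld x k‖ = ‖h - k‖ := by
  refine tendsto_nhds_unique ((f.tendsto_Ld hx h).sub (f.tendsto_Ld hx k)).norm ?_
  have hz : Tendsto (fun n => 2 * |nq x h n - nq x k n|) atTop (𝓝 0) := by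
    simpa [he] using (((tendsto_nq x h).sub (tendsto_nq x k)).abs).const_mul 2
  refine tendsto_const_nhds.congr_dist (squeeze_zero (fun _ => dist_nonneg) (fun n => ?_) hz)
  have hc : (0 : ℝ) < 2 ^ n := by positivity
  set t : ℝ := ((2 : ℝ) ^ n)⁻¹ with ht
  have h1 := mul_le_mul_of_nonneg_left (f.abs_norm_G_sub (x + t • h) (x + t • k)) hc.le
  rw [Real.dist_eq, abs_sub_comm]
  simp only [dq, nq, ← ht, ← smul_sub, sub_sub_sub_cancel_right, norm_smul,
    Real.norm_of_nonneg hc.le]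
  rw [← mul_sub, abs_mul, abs_of_pos hc, sub_sub_sub_cancel_right]
  refine le_of_le_of_eq (le_of_eq_of_le ?_ h1) (by ring)
  rw [show ‖h - k‖ = (2 : ℝ) ^ n * ‖x + t • h - (x + t • k)‖ by
    rw [add_sub_add_left_eq_sub, ← smul_sub, norm_smul, ht, norm_inv,
      Real.norm_of_nonneg hc.le]; field_simp, ← mul_sub, abs_mul, abs_of_pos hc]

variable [CompleteSpace X]

/-- The derivative of the inverse is the inverse derivative. -/
lemma symm_Ld_Ld (hx : ‖x‖ = 1) (h : X) : f.symm.Ld (f.G x) (f.Ld x h) = h := by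
  have hy : ‖f.G x‖ = 1 := by rw [f.norm_G, hx]
  refine tendsto_nhds_unique (f.symm.tendsto_Ld hy (f.Ld x h)) ?_
  have hz : Tendsto (fun n => 3 * ‖f.dq x h n - f.Ld x h‖) atTop (𝓝 0) := by
    simpa using (tendsto_iff_norm_sub_tendsto_zero.1 (f.tendsto_Ld hx h)).const_mul 3
  refine tendsto_const_nhds.congr_dist (squeeze_zero (fun _ => dist_nonneg) (fun n => ?_) hz)
  have hc : (0 : ℝ) < 2 ^ n := by positivity
  set t : ℝ := ((2 : ℝ) ^ n)⁻¹ with ht
  have h1 := f.symm.norm_G_sub_le (f.G x + t • f.dq x h n) (f.G x + t • f.Ld x h)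
  have e : f.G x + t • f.dq x h n = f.G (x + t • h) := by
    simp only [dq, smul_smul, ht, inv_mul_cancel₀ hc.ne', one_smul, add_sub_cancel]
  rw [symm_G, e, f.Gi_G, ← e, add_sub_add_left_eq_sub, ← smul_sub, norm_smul, ht, norm_inv,
    Real.norm_of_nonneg hc.le] at h1
  rw [dist_eq_norm, dq, symm_G, f.Gi_G]
  have h2 := mul_le_mul_of_nonneg_left h1 hc.le
  rw [← Real.norm_of_nonneg hc.le, ← norm_smul, Real.norm_of_nonneg hc.le] at h2
  refine le_of_eq_of_le ?_ (h2.trans_eq ?_)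
  · rw [smul_sub, smul_sub, smul_add, smul_smul, mul_inv_cancel₀ hc.ne', one_smul]
    congr 1
    abel
  · field_simp

end PIso

end Vale.Agent.P084.Orbit
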