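import Vale.Agent.P084.Bad.Main

/-!
P084 (Tingley's problem), library: at points near which a norm is linear, the target norm is
linear near the image and the extension is linear.
-/

namespace Vale.Agent.P084.Orbit

open Filter Topology Metric

variable {X Y : Type*} [NormedAddCommGroup X] [NormedSpace ℝ X] [NormedAddCommGroup Y]
  [NormedSpace ℝ Y]

/-- The norm is linear near `x`. -/
def FlatAt (x : X) : Prop := ∃ π : X →L[ℝ] ℝ, ∀ᶠ v in 𝓝 x, ‖v‖ = π v

lemma FlatAt.neg {x : X} (h : FlatAt x) : FlatAt (-x) := by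
  obtain ⟨π, hπ⟩ := h
  refine ⟨-π, ?_⟩
  have : Tendsto (fun v : X => -v) (𝓝 (-x)) (𝓝 x) := continuous_neg.tendsto' _ _ (neg_neg x)
  filter_upwards [this.eventually hπ] with v hv
  rw [norm_neg] at hv
  rw [hv, map_neg, neg_apply]

lemma hasFDerivAt_of_flat {x : X} {π : X →L[ℝ] ℝ} (h : ∀ᶠ v in 𝓝 x, ‖v‖ = π v) :
    HasFDerivAt (fun z : X => ‖z‖) π x :=
  π.hasFDerivAt.congr_of_eventuallyEq h

lemma supp_eq {x : X} {π φ : X →L[ℝ] ℝ} (hd : HasFDerivAt (fun z : X => ‖z‖) π x)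
    (hφ : Supp x φ) : φ = π := by
  have hm : IsLocalMin (fun z : X => ‖z‖ - φ z) x := Eventually.of_forall fun z => by
    simp only [hφ.2, sub_self]
    linarith [hφ.le z]
  exact (sub_eq_zero.1 (hm.hasFDerivAt_eq_zero (hd.sub φ.hasFDerivAt))).symm

/-- An isometric bijection of a midpoint-symmetric set fixing two points fixes their midpoint. -/
lemma fixed_midpoint {Z : Type*} [NormedAddCommGroup Z] [NormedSpace ℝ Z] (F : Set Z) {a b : Z}
    (hrefl : ∀ u ∈ F, a + b - u ∈ F) (ha : a ∈ F) (hb : b ∈ F)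
    (hm : (1 / 2 : ℝ) • (a + b) ∈ F) (g : F ≃ᵢ F) (hga : g ⟨a, ha⟩ = ⟨a, ha⟩)
    (hgb : g ⟨b, hb⟩ = ⟨b, hb⟩) : g ⟨_, hm⟩ = ⟨_, hm⟩ := by
  let R : F ≃ᵢ F :=
    { toFun := fun u => ⟨a + b - u, hrefl u u.2⟩
      invFun := fun u => ⟨a + b - u, hrefl u u.2⟩
      left_inv := fun u => Subtype.ext (sub_sub_cancel _ _)
      right_inv := fun u => Subtype.ext (sub_sub_cancel _ _)
      isometry_toFun := Isometry.of_dist_eq fun u v => by
        simp [Subtype.dist_eq, dist_eq_norm, norm_sub_rev] }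
  set m : F := ⟨_, hm⟩ with hmdef
  have key : ∀ k : ℕ, ∀ g : F ≃ᵢ F, g ⟨a, ha⟩ = ⟨a, ha⟩ → g ⟨b, hb⟩ = ⟨b, hb⟩ →
      (2 : ℝ) ^ k * dist (g m) m ≤ 2 * dist m ⟨a, ha⟩ := by
    intro k
    induction k with
    | zero =>
      intro g hga _
      rw [pow_zero, one_mul]
      refine (dist_triangle (g m) ⟨a, ha⟩ m).trans ?_
      nth_rw 1 [← hga]
      rw [g.dist_eq, dist_comm ⟨a, ha⟩ m]
      linarith
    | succ k ih =>
      intro g hga hgb
      have hRa : R ⟨a, ha⟩ = ⟨b, hb⟩ := Subtype.ext (add_sub_cancel_left _ _)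
      have hRb : R ⟨b, hb⟩ = ⟨a, ha⟩ := Subtype.ext (add_sub_cancel_right _ _)
      have hRm : R m = m := Subtype.ext (by
        show a + b - (1 / 2 : ℝ) • (a + b) = (1 / 2 : ℝ) • (a + b)
        module)
      set g' := ((g.trans R).trans g.symm).trans R with hg'
      have ea : g' ⟨a, ha⟩ = ⟨a, ha⟩ := by
        show R (g.symm (R (g ⟨a, ha⟩))) = _
        rw [hga, hRa, g.symm_apply_eq.2 hgb.symm, hRb]
      have eb : g' ⟨b, hb⟩ = ⟨b, hb⟩ := by
        show R (g.symm (R (g ⟨b, hb⟩))) = _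
        rw [hgb, hRb, g.symm_apply_eq.2 hga.symm, hRa]
      have h := ih g' ea eb
      have e : dist (g' m) m = 2 * dist (g m) m := by
        show dist (R (g.symm (R (g m)))) m = _
        nth_rw 2 [← hRm]
        rw [R.dist_eq]
        nth_rw 2 [← g.symm_apply_apply m]
        rw [g.symm.dist_eq, Subtype.dist_eq, Subtype.dist_eq, dist_eq_norm, dist_eq_norm]
        show ‖a + b - (g m : Z) - g m‖ = 2 * ‖(g m : Z) - m‖
        rw [show a + b - (g m : Z) - g m = (-2 : ℝ) • ((g m : Z) - (m : Z)) by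
          simp only [hmdef]; module, norm_smul, norm_neg, Real.norm_two]
      rw [e] at h
      rw [pow_succ]
      linarith
  by_contra hne
  obtain ⟨k, hk⟩ := pow_unbounded_of_one_lt (2 * dist m ⟨a, ha⟩ / dist (g m) m)
    (one_lt_two : (1 : ℝ) < 2)
  rw [div_lt_iff₀ (dist_pos.2 hne)] at hk
  linarith [key k g hga hgb]

namespace PIso

variable (f : PIso X Y) [CompleteSpace X] [CompleteSpace Y]

omit [CompleteSpace X] [CompleteSpace Y] in
lemma continuous_Gi : Continuous f.Gi := f.symm.continuous_G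

/-- Flatness passes to the target. -/
theorem flat_G {x : X} (hx : ‖x‖ = 1) (h : FlatAt x) : FlatAt (f.G x) := by
  obtain ⟨π, hπ⟩ := h
  have hπS := supp_of_hasFDerivAt (by intro e; simp [e] at hx) (hasFDerivAt_of_flat hπ)
  obtain ⟨π₁, hπ₁⟩ := (show FlatAt x from ⟨π, hπ⟩).neg
  have hx' : ‖-x‖ = 1 := by rw [norm_neg, hx]
  obtain ⟨L, -, -, hdz, -⟩ := f.exists_deriv_equiv hx' (hasFDerivAt_of_flat hπ₁)
  set z := f.G (-x) with hz
  have hd : HasFDerivAt (fun w : Y => ‖w‖)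
      (-(π₁.comp (L.symm : Y →L[ℝ] X))) (-z) := by
    have h0 : HasFDerivAt (fun w : Y => ‖w‖) (π₁.comp (L.symm : Y →L[ℝ] X)) (-(-z)) := by
      rwa [neg_neg]
    have := h0.comp (-z) (hasFDerivAt_id (-z)).neg
    refine (this.congr_fderiv ?_).congr_of_eventuallyEq (Eventually.of_forall fun w => ?_)
    · ext w; simp
    · simp
  set π₀ := -(π₁.comp (L.symm : Y →L[ℝ] X))
  refine ⟨π₀, ?_⟩
  have hy1 : ‖f.G x‖ = 1 := by rw [f.norm_G, hx]
  have hy0 : f.G x ≠ 0 := fun e => by simp [e] at hy1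
  have hcu : Tendsto (fun w : Y => f.Gi (‖w‖⁻¹ • w)) (𝓝 (f.G x)) (𝓝 x) := by
    have h : ContinuousAt (fun w : Y => f.Gi (‖w‖⁻¹ • w)) (f.G x) :=
      f.continuous_Gi.continuousAt.comp
        ((continuous_norm.continuousAt.inv₀ (norm_ne_zero_iff.2 hy0)).smul continuousAt_id)
    simpa [ContinuousAt, hy1, f.Gi_G] using h
  filter_upwards [hcu.eventually hπ, eventually_ne_nhds hy0] with w hw hw0
  set u := f.Gi (‖w‖⁻¹ • w) with hu
  have hu1 : ‖u‖ = 1 := by
    rw [hu, f.norm_Gi]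
    exact norm_smul_inv_norm hw0
  have h2 : ‖u - -x‖ = 2 := by
    refine le_antisymm ((norm_sub_le _ _).trans (by rw [norm_neg, hx, hu1]; norm_num)) ?_
    have := hπS.le (u - -x)
    rw [map_sub, map_neg, hπS.2, hx, ← hw, hu1] at this
    linarith
  obtain ⟨φ, hφ⟩ := exists_supp (f.G u - z)
  have h3 : φ (f.G u) - φ z = 2 := by
    rw [← map_sub, hφ.2, hz, f.dist_unit hu1 hx', h2]
  have h4 := hφ.le (f.G u)
  have h5 := hφ.ge z
  rw [f.norm_G, hu1] at h4
  rw [hz, f.norm_G, hx', ← hz] at h5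
  have hφ' : φ = π₀ := supp_eq hd ⟨hφ.le, by rw [map_neg, norm_neg, hz, f.norm_G, hx', ← hz]; linarith⟩
  have h6 : π₀ (f.G u) = 1 := by rw [← hφ']; linarith
  rw [hu, f.G_Gi, map_smul, smul_eq_mul, inv_mul_eq_one₀ (norm_ne_zero_iff.2 hw0)] at h6
  exact h6

omit [CompleteSpace X] [CompleteSpace Y] in
/-- The extension preserves midpoints in a flat piece. -/
lemma midpoint_flat {π : X →L[ℝ] ℝ} {π' : Y →L[ℝ] ℝ} {x a b : X} {r : ℝ} (hx : ‖x‖ = 1)
    (hπ : ∀ v, ‖v - x‖ < r → ‖v‖ = π v) (hπ' : ∀ w, ‖w - f.G x‖ < r → ‖w‖ = π' w)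
    (ha : ‖a‖ = 1) (hb : ‖b‖ = 1) (hax : ‖a - x‖ < r / 4) (hbx : ‖b - x‖ < r / 4) :
    f.G ((1 / 2 : ℝ) • (a + b)) = (1 / 2 : ℝ) • (f.G a + f.G b) := by
  set d := ‖a - b‖ with hd
  have hd2 : d < r / 2 := by
    have := norm_sub_le_norm_sub_add_norm_sub a x b
    rw [norm_sub_rev x b] at this
    linarith
  set a' := f.G a
  set b' := f.G b
  have hd' : ‖a' - b'‖ = d := f.dist_unit ha hb
  have ha' : ‖a' - f.G x‖ < r / 4 := by rwa [f.dist_unit ha hx]
  have hb' : ‖b' - f.G x‖ < r / 4 := by rwa [f.dist_unit hb hx]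
  set F : Set X := {u | ‖u‖ = 1 ∧ ‖u - a‖ ≤ d ∧ ‖u - b‖ ≤ d} with hF
  set F' : Set Y := {u | ‖u‖ = 1 ∧ ‖u - a'‖ ≤ d ∧ ‖u - b'‖ ≤ d} with hF'
  have hr0 : 0 < r := by linarith [norm_nonneg (a - x)]
  have near : ∀ u a x : X, ‖u - a‖ ≤ d → ‖a - x‖ < r / 4 → ‖u - x‖ < r := fun u a x h1 h2 => by
    linarith [norm_sub_le_norm_sub_add_norm_sub u a x]
  have near' : ∀ u a x : Y, ‖u - a‖ ≤ d → ‖a - x‖ < r / 4 → ‖u - x‖ < r := fun u a x h1 h2 => by
    linarith [norm_sub_le_norm_sub_add_norm_sub u a x]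
  have hrefl : ∀ u ∈ F, a + b - u ∈ F := by
    rintro u ⟨hu, hua, hub⟩
    have h1 : ‖a + b - u - a‖ ≤ d := by rwa [show a + b - u - a = b - u by abel, norm_sub_rev]
    refine ⟨?_, h1, by rwa [show a + b - u - b = a - u by abel, norm_sub_rev]⟩
    rw [hπ _ (near _ a x h1 hax), map_sub, map_add, ← hπ a (by linarith [norm_nonneg (a - x)]),
      ← hπ b (by linarith [norm_nonneg (b - x)]), ← hπ u (near u a x hua hax), ha, hb, hu]
    ring
  have hrefl' : ∀ u ∈ F', a' + b' - u ∈ F' := by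
    rintro u ⟨hu, hua, hub⟩
    have h1 : ‖a' + b' - u - a'‖ ≤ d := by
      rwa [show a' + b' - u - a' = b' - u by abel, norm_sub_rev]
    refine ⟨?_, h1, by rwa [show a' + b' - u - b' = a' - u by abel, norm_sub_rev]⟩
    rw [hπ' _ (near' _ a' _ h1 ha'), map_sub, map_add,
      ← hπ' a' (by linarith [norm_nonneg (a' - f.G x)]),
      ← hπ' b' (by linarith [norm_nonneg (b' - f.G x)]), ← hπ' u (near' u a' _ hua ha'),
      f.norm_G, f.norm_G, ha, hb, hu]
    ring
  have haF : a ∈ F := ⟨ha, by simp [hd], le_rfl⟩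
  have hbF : b ∈ F := ⟨hb, by rw [hd, norm_sub_rev], by simp [hd]⟩
  have hmF : (1 / 2 : ℝ) • (a + b) ∈ F := by
    have e1 : ‖(1 / 2 : ℝ) • (a + b) - a‖ ≤ d := by
      rw [show (1 / 2 : ℝ) • (a + b) - a = (1 / 2 : ℝ) • (b - a) by module, norm_smul,
        norm_sub_rev, Real.norm_of_nonneg (by norm_num)]
      linarith [norm_nonneg (a - b)]
    refine ⟨?_, e1, ?_⟩
    · rw [hπ _ (near _ a x e1 hax), map_smul, map_add, smul_eq_mul,
        ← hπ a (by linarith [norm_nonneg (a - x)]), ← hπ b (by linarith [norm_nonneg (b - x)]),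
        ha, hb]
      norm_num
    · rw [show (1 / 2 : ℝ) • (a + b) - b = (1 / 2 : ℝ) • (a - b) by module, norm_smul,
        Real.norm_of_nonneg (by norm_num)]
      linarith [norm_nonneg (a - b)]
  have ha'F : a' ∈ F' := ⟨by rw [f.norm_G, ha], by simp [hd], hd'.le⟩
  have hb'F : b' ∈ F' :=
    ⟨by rw [f.norm_G, hb], by rw [norm_sub_rev]; exact hd'.le, by simp [hd]⟩
  have hm'F : (1 / 2 : ℝ) • (a' + b') ∈ F' := by
    have e1 : ‖(1 / 2 : ℝ) • (a' + b') - a'‖ ≤ d := by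
      rw [show (1 / 2 : ℝ) • (a' + b') - a' = (1 / 2 : ℝ) • (b' - a') by module, norm_smul,
        norm_sub_rev, hd', Real.norm_of_nonneg (by norm_num)]
      linarith [norm_nonneg (a - b)]
    refine ⟨?_, e1, ?_⟩
    · rw [hπ' _ (near' _ a' _ e1 ha'), map_smul, map_add, smul_eq_mul,
        ← hπ' a' (by linarith [norm_nonneg (a' - f.G x)]),
        ← hπ' b' (by linarith [norm_nonneg (b' - f.G x)]), f.norm_G, f.norm_G, ha, hb]
      norm_num
    · rw [show (1 / 2 : ℝ) • (a' + b') - b' = (1 / 2 : ℝ) • (a' - b') by module, norm_smul, hd',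
        Real.norm_of_nonneg (by norm_num)]
      linarith [norm_nonneg (a - b)]
  let e : F ≃ᵢ F' :=
    { toFun := fun u => ⟨f.G u, by rw [f.norm_G]; exact u.2.1,
        by rw [f.dist_unit u.2.1 ha]; exact u.2.2.1, by rw [f.dist_unit u.2.1 hb]; exact u.2.2.2⟩
      invFun := fun u => ⟨f.Gi u, by rw [f.norm_Gi]; exact u.2.1,
        by rw [← f.dist_unit (by rw [f.norm_Gi]; exact u.2.1) ha, f.G_Gi]; exact u.2.2.1,
        by rw [← f.dist_unit (by rw [f.norm_Gi]; exact u.2.1) hb, f.G_Gi]; exact u.2.2.2⟩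
      left_inv := fun u => Subtype.ext (f.Gi_G u)
      right_inv := fun u => Subtype.ext (f.G_Gi u)
      isometry_toFun := Isometry.of_dist_eq fun u v => by
        simp only [Subtype.dist_eq, dist_eq_norm]
        exact f.dist_unit u.2.1 v.2.1 }
  let R : F ≃ᵢ F :=
    { toFun := fun u => ⟨a + b - u, hrefl u u.2⟩
      invFun := fun u => ⟨a + b - u, hrefl u u.2⟩
      left_inv := fun u => Subtype.ext (sub_sub_cancel _ _)
      right_inv := fun u => Subtype.ext (sub_sub_cancel _ _)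
      isometry_toFun := Isometry.of_dist_eq fun u v => by
        simp [Subtype.dist_eq, dist_eq_norm, norm_sub_rev] }
  let R' : F' ≃ᵢ F' :=
    { toFun := fun u => ⟨a' + b' - u, hrefl' u u.2⟩
      invFun := fun u => ⟨a' + b' - u, hrefl' u u.2⟩
      left_inv := fun u => Subtype.ext (sub_sub_cancel _ _)
      right_inv := fun u => Subtype.ext (sub_sub_cancel _ _)
      isometry_toFun := Isometry.of_dist_eq fun u v => by
        simp [Subtype.dist_eq, dist_eq_norm, norm_sub_rev] }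
  have e1 : e ⟨a, haF⟩ = ⟨a', ha'F⟩ := rfl
  have e2 : e ⟨b, hbF⟩ = ⟨b', hb'F⟩ := rfl
  have hfix := fixed_midpoint F' hrefl' ha'F hb'F hm'F (((e.symm).trans R).trans e |>.trans R')
    (by
      show R' (e (R (e.symm ⟨a', ha'F⟩))) = _
      rw [← e1, e.symm_apply_apply]
      refine Subtype.ext ?_
      show a' + b' - f.G (a + b - a) = a'
      rw [add_sub_cancel_left, add_sub_cancel_right])
    (by
      show R' (e (R (e.symm ⟨b', hb'F⟩))) = _
      rw [← e2, e.symm_apply_apply]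
      refine Subtype.ext ?_
      show a' + b' - f.G (a + b - b) = b'
      rw [add_sub_cancel_right, add_sub_cancel_left])
  set m : F' := ⟨_, hm'F⟩
  have h1 : e (R (e.symm m)) = m := by
    have := congrArg R' hfix
    refine Subtype.ext ?_
    have h' := congrArg Subtype.val this
    simp only [R', IsometryEquiv.trans_apply, IsometryEquiv.coe_mk, Equiv.coe_fn_mk,
      sub_sub_cancel] at h'
    rw [show (m : Y) = (1 / 2 : ℝ) • (a' + b') from rfl] at h' ⊢
    linear_combination (norm := module) h'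
  have h2 : R (e.symm m) = e.symm m := e.injective (by rw [h1, e.apply_symm_apply])
  have h3 : a + b - (e.symm m : X) = e.symm m := congrArg Subtype.val h2
  have h4 : (e.symm m : X) = (1 / 2 : ℝ) • (a + b) := by
    have : a + b = (2 : ℝ) • (e.symm m : X) := by
      linear_combination (norm := module) h3
    rw [this, smul_smul]
    norm_num
  calc f.G ((1 / 2 : ℝ) • (a + b)) = f.G (e.symm m : X) := by rw [h4]
    _ = (1 / 2 : ℝ) • (a' + b') := congrArg Subtype.val (e.apply_symm_apply m)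

/-- The extension is linear near a flat point. -/
theorem linear_of_flat {x : X} (hx : ‖x‖ = 1) (h : FlatAt x) :
    ∃ L : X →L[ℝ] Y, ∀ᶠ v in 𝓝 x, f.G v = L v := by
  obtain ⟨π', hπ'⟩ := f.flat_G hx h
  obtain ⟨π, hπ⟩ := h
  have hd := hasFDerivAt_of_flat hπ
  have hx0 : x ≠ 0 := fun e => by simp [e] at hx
  have hπS := supp_of_hasFDerivAt hx0 hd
  obtain ⟨L, -, hLx, -, hest⟩ := f.exists_deriv hx hd
  obtain ⟨r, hr, hr1⟩ := Metric.eventually_nhds_iff.1 hπ
  obtain ⟨r', hr', hr2⟩ := Metric.eventually_nhds_iff.1 hπ'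
  set ρ := min (min r r') (1 / 16384) with hρ
  have hρ0 : 0 < ρ := lt_min (lt_min hr hr') (by norm_num)
  have hπρ : ∀ v, ‖v - x‖ < ρ → ‖v‖ = π v := fun v hv =>
    hr1 (by rw [dist_eq_norm]; exact hv.trans_le ((min_le_left _ _).trans (min_le_left _ _)))
  have hπρ' : ∀ w, ‖w - f.G x‖ < ρ → ‖w‖ = π' w := fun w hw =>
    hr2 (by rw [dist_eq_norm]; exact hw.trans_le ((min_le_left _ _).trans (min_le_right _ _)))
  have htan : ∀ τ : X, π τ = 0 → ‖τ‖ < ρ / 4 → f.G (x + τ) = f.G x + L τ := by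
    intro τ hτ hτn
    have hsub : ∀ n : ℕ, ‖((2 : ℝ) ^ n)⁻¹ • τ‖ ≤ ‖τ‖ := fun n => by
      rw [norm_smul, norm_inv, Real.norm_of_nonneg (by positivity)]
      exact mul_le_of_le_one_left (norm_nonneg _)
        (inv_le_one_of_one_le₀ (one_le_pow₀ one_le_two))
    have hnorm : ∀ n : ℕ, ‖x + ((2 : ℝ) ^ n)⁻¹ • τ‖ = 1 := fun n => by
      rw [hπρ _ (by rw [add_sub_cancel_left]; linarith [hsub n]), map_add, map_smul, hτ, smul_zero,
        add_zero, hπS.2, hx]
    have hconst : ∀ n, f.dq x τ n = f.G (x + τ) - f.G x := by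
      intro n
      induction n with
      | zero => simp [dq]
      | succ n ih =>
        have hm := f.midpoint_flat (a := x + ((2 : ℝ) ^ n)⁻¹ • τ) (b := x) (r := ρ) hx hπρ hπρ'
          (hnorm n) hx (by rw [add_sub_cancel_left]; linarith [hsub n])
          (by rw [sub_self, norm_zero]; linarith)
        rw [show (1 / 2 : ℝ) • (x + ((2 : ℝ) ^ n)⁻¹ • τ + x) = x + ((2 : ℝ) ^ (n + 1))⁻¹ • τ by
          rw [pow_succ, mul_inv]; module] at hm
        rw [← ih, dq, dq, hm, pow_succ]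
        module
    refine sub_eq_zero.1 (norm_le_zero_iff.1 ?_)
    have hlim : Tendsto (fun n : ℕ => C0 * (4 * ‖τ‖ ^ 2) / (2 : ℝ) ^ n) atTop (𝓝 0) :=
      tendsto_const_nhds.div_atTop (tendsto_pow_atTop_atTop_of_one_lt one_lt_two)
    refine ge_of_tendsto hlim (Eventually.of_forall fun n => ?_)
    have hc : (0 : ℝ) < 2 ^ n := by positivity
    have he := hest (((2 : ℝ) ^ n)⁻¹ • τ)
      (by linarith [hsub n, min_le_right (min r r') (1 / 16384 : ℝ)])
    have hdef : defect x π (((2 : ℝ) ^ n)⁻¹ • τ) = 0 := by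
      simp [defect, hnorm n, hx, hτ]
    rw [hdef, zero_add, norm_smul, norm_inv, Real.norm_of_nonneg hc.le, map_smul] at he
    have h1 := mul_le_mul_of_nonneg_left he hc.le
    rw [← Real.norm_of_nonneg hc.le, ← norm_smul, Real.norm_of_nonneg hc.le, smul_sub,
      smul_smul, mul_inv_cancel₀ hc.ne', one_smul,
      show (2 : ℝ) ^ n • (f.G (x + ((2 : ℝ) ^ n)⁻¹ • τ) - f.G x) = f.dq x τ n from rfl,
      hconst n] at h1
    refine le_trans (le_of_eq ?_) (h1.trans_eq (by field_simp))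
    rw [sub_add_eq_sub_sub]
  refine ⟨L, ?_⟩
  have hπx : π x = 1 := by rw [hπS.2, hx]
  have hcu : Tendsto (fun v : X => (π v)⁻¹ • v) (𝓝 x) (𝓝 x) := by
    have h : ContinuousAt (fun v : X => (π v)⁻¹ • v) x :=
      (π.continuous.continuousAt.inv₀ (by rw [hπx]; exact one_ne_zero)).smul continuousAt_id
    simpa [ContinuousAt, hπx] using h
  filter_upwards [hcu.eventually (Metric.ball_mem_nhds x (show 0 < ρ / 4 by positivity)),
    (π.continuous.tendsto x).eventually_const_lt (show (0 : ℝ) < π x by rw [hπx]; norm_num)]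
    with v hv hpos
  rw [dist_eq_norm] at hv
  set u := (π v)⁻¹ • v with hu
  have h1 := htan (u - x) (by rw [map_sub, hu, map_smul, smul_eq_mul, inv_mul_cancel₀ hpos.ne',
    hπx, sub_self]) hv
  rw [add_sub_cancel, map_sub, hLx, add_sub_cancel] at h1
  have e : v = π v • u := by rw [hu, smul_smul, mul_inv_cancel₀ hpos.ne', one_smul]
  rw [e, f.G_smul _ hpos.le, map_smul, h1]

end PIso

end Vale.Agent.P084.Orbit
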