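import Vale.Agent.P084.Bad.Facet

/-!
P084 (Tingley's problem), library: a Banach space each of whose sphere points is either a point
near which the norm is linear or a limit of bad points has the Mazur–Ulam property.
-/

namespace Vale.Agent.P084.Orbit

open Filter Topology Metric

variable {X Y : Type*} [NormedAddCommGroup X] [NormedSpace ℝ X] [NormedAddCommGroup Y]
  [NormedSpace ℝ Y]

namespace PIso

variable (f : PIso X Y)

/-- The radial mismatch vanishes at `x`. -/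
def ZeroAt (x : X) : Prop := ∀ e : ℝ, 0 < e → f.Avail x (fun p q => |q (f.G x) - p x| ≤ e)

lemma zeroAt_symm {x : X} (hx : ‖x‖ = 1) (h : f.ZeroAt x) : f.symm.ZeroAt (f.G x) := fun e he =>
  ((h e he).symm hx).mono fun q p hpq => by rwa [symm_G, f.Gi_G, abs_sub_comm]

lemma zeroAt_of_rough [CompleteSpace X] [CompleteSpace Y] {x : X} (hx : ‖x‖ = 1) (hr : Rough x) :
    f.ZeroAt x := fun e he => by
  obtain ⟨T, hT, hA⟩ := f.exists_isometry' hx hr
  refine (hA x e he).mono fun p q h => ?_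
  rwa [← hT, f.Ld_self hx] at h

/-- Norms of directions entering at a limit of zero points do not decrease. -/
lemma entering_le {x₀ h v : X} {A : X →L[ℝ] Y} {c μ : ℝ} (hv : 0 < c) (hμ0 : 0 ≤ μ)
    (hx₀1 : ‖x₀‖ = 1) (hsegh : ∀ t ∈ Set.Icc (0 : ℝ) 1, ‖x₀ + t • h‖ = 1 ∧
      f.G (x₀ + t • h) = A x₀ + t • A h) (hv' : v = c • (x₀ - μ • h))
    (hzero : ∀ ε : ℝ, 0 < ε → ∃ u' : X, ‖u'‖ = 1 ∧ ‖u' - x₀‖ < ε ∧ f.ZeroAt u') :
    ‖v‖ ≤ ‖A v‖ := by
  -- a direction entering the ball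
  set τ : ℝ := (2 * c * (1 + μ))⁻¹ with hτ
  have hτ0 : 0 < τ := by positivity
  have hτc : τ * c * (1 + μ) = 1 / 2 := by rw [hτ]; field_simp
  have hτμ : 0 ≤ τ * c * μ := by positivity
  have hlt : ‖x₀ - τ • v‖ < 1 := by
    have h2 : (1 : ℝ) / 2 ≤ 1 - τ * c := by linarith [show τ * c + τ * c * μ = 1 / 2 by linarith]
    set σ := τ * c * μ / (1 - τ * c) with hσ
    have hσI : σ ∈ Set.Icc (0 : ℝ) 1 := ⟨div_nonneg hτμ (by linarith), by
      rw [div_le_one (by linarith)]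
      linarith [show τ * c + τ * c * μ = 1 / 2 by linarith]⟩
    have e : x₀ - τ • v = (1 - τ * c) • (x₀ + σ • h) := by
      rw [smul_add, smul_smul, hσ, mul_div_cancel₀ _ (by linarith : (1 - τ * c) ≠ 0), hv']
      module
    rw [e, norm_smul, (hsegh σ hσI).1, mul_one, Real.norm_of_nonneg (by linarith)]
    linarith [show 0 < τ * c by positivity]
  obtain ⟨T, hT, hTs⟩ := exists_beyond hx₀1 hlt
  rw [sub_sub_cancel, smul_smul] at hTs
  refine le_of_forall_pos_le_add fun η₂ hη₂ => ?_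
  set η := η₂ / 2 with hη2
  have hη : 0 < η := half_pos hη₂
  set K₁ := c + c * μ + 2 / τ + 1 with hK₁
  set e := η / K₁ with he
  have hK0 : 0 < K₁ := by positivity
  have he0 : 0 < e := div_pos hη hK0
  set δ : ℝ := min (1 / 4) (e / 24) with hδ
  have hδ0 : 0 < δ := lt_min (by norm_num) (by linarith)
  have hh0 := norm_nonneg h
  set t : ℝ := min (min (δ / (24 * (‖h‖ + 1))) 1) (e * δ / (1026 * (‖h‖ + 1) ^ 2)) with ht
  have ht0 : 0 < t := lt_min (lt_min (by positivity) one_pos) (by positivity)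
  have ht1 : t ≤ 1 := (min_le_left _ _).trans (min_le_right _ _)
  set a := t * (‖h‖ + 1) with ha
  have ha0 : 0 < a := by positivity
  have haδ : 24 * a ≤ δ := by
    have h1 : t ≤ δ / (24 * (‖h‖ + 1)) := (min_le_left _ _).trans (min_le_left _ _)
    rw [le_div_iff₀ (by positivity)] at h1
    rw [ha]; linarith
  have herr : 1026 * a ^ 2 / δ ≤ e * t := by
    have h1 : t ≤ e * δ / (1026 * (‖h‖ + 1) ^ 2) := min_le_right _ _
    rw [le_div_iff₀ (by positivity)] at h1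
    rw [div_le_iff₀ hδ0, ha]
    calc 1026 * (t * (‖h‖ + 1)) ^ 2 = t * (t * (1026 * (‖h‖ + 1) ^ 2)) := by ring
      _ ≤ t * (e * δ) := mul_le_mul_of_nonneg_left h1 ht0.le
      _ = e * t * δ := by ring
  obtain ⟨u, hu, huD, huZ⟩ := hzero (e * t / 16) (by positivity)
  set e₀ := x₀ - (T * τ) • v with he₀
  obtain ⟨s₁, hs₁, hb₁, k₁⟩ := f.stage_upper (c₁ := t • h) (c₂ := t • h) (w := e₀) hu hTs ha0
    (by rw [norm_smul, Real.norm_of_nonneg ht0.le, ha]; linarith)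
    (by rw [norm_smul, Real.norm_of_nonneg ht0.le, ha]; linarith)
    (by linarith) (min_le_left _ _)
  obtain ⟨ε, hε, k₂⟩ := huZ e he0 (a ^ 2) (by positivity)
  obtain ⟨s₂, hs₂, hb₂, k₃⟩ := k₂ s₁ hs₁
  obtain ⟨p, hp⟩ := exists_supp (u - s₂)
  obtain ⟨q, hq⟩ := exists_supp (f.G u - f.G s₂)
  have r₁ := k₁ s₂ hs₂ hb₂ p q hp hq
  have r₂ := abs_le.1 (k₃ s₂ hs₂ ((beyond_refl u s₂).mono hε.le) p q hp hq)
  have r₃ := f.abs_delta_le hu hp hq
  have r₄ := (hb₁.trans hb₂).apply hp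
  obtain ⟨hn1, hG1⟩ := hsegh t ⟨ht0.le, ht1⟩
  obtain ⟨-, hG0⟩ := hsegh 0 ⟨le_rfl, zero_le_one⟩
  rw [zero_smul, zero_smul, add_zero, add_zero] at hG0
  set Δ := ‖u - x₀‖ with hΔ
  have hn : |‖u + t • h‖ - 1| ≤ Δ := by
    rw [← hn1]
    exact (abs_norm_sub_norm_le _ _).trans_eq (by rw [add_sub_add_right_eq_sub])
  have g1 := f.norm_G_sub_le (u + t • h) (x₀ + t • h)
  rw [add_sub_add_right_eq_sub, ← hΔ, hG1] at g1
  have g2 := f.norm_G_sub_le u x₀
  rw [← hΔ, hG0] at g2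
  have q1 := hq.ge (f.G (u + t • h) - (A x₀ + t • A h))
  have q2 := hq.le (f.G u - A x₀)
  have q3 := hq.ge (f.G u - A x₀)
  have p1 := hp.le (u - x₀)
  have p2 := hp.ge (u - x₀)
  simp only [map_sub, map_add, map_smul, smul_eq_mul, ← hΔ] at q1 q2 q3 p1 p2
  simp only [res, map_sub, map_smul, smul_eq_mul] at r₁
  have hprod : |(‖u + t • h‖ + ‖u + t • h‖ - 2) * (q (f.G u) - p u)| ≤ 2 * Δ * 2 := by
    rw [abs_mul]
    refine mul_le_mul ?_ r₃ (abs_nonneg _) (by positivity)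
    rw [show ‖u + t • h‖ + ‖u + t • h‖ - 2 = 2 * (‖u + t • h‖ - 1) by ring, abs_mul, abs_two]
    linarith
  have hsmall : Δ ≤ e * t / 16 := huD.le
  have hAh : q (A h) ≤ p h + 2 * e := by
    have h1 : t * q (A h) ≤ t * (p h + 2 * e) := by
      have := mul_pos he0 ht0
      linarith [(abs_le.1 hprod).2]
    exact le_of_mul_le_mul_left h1 ht0
  have hAx : p x₀ - 2 * e ≤ q (A x₀) := by
    have : e * t / 16 ≤ e / 16 := by
      have := mul_le_mul_of_nonneg_left ht1 he0.le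
      linarith
    linarith
  -- the chord norms the direction
  have hpv : ‖v‖ - 2 * e / τ ≤ p v := by
    have h5 := norm_sub_le_norm_sub_add_norm_sub x₀ u e₀
    rw [norm_sub_rev x₀ u, ← hΔ] at h5
    have h6 : ‖x₀ - e₀‖ = T * τ * ‖v‖ := by
      rw [he₀, sub_sub_cancel, norm_smul, Real.norm_of_nonneg (by positivity)]
    have h7 : p (u - e₀) = (p u - p x₀) + T * τ * p v := by
      rw [he₀, map_sub, map_sub, map_smul, smul_eq_mul]; ring
    have ha2 : a ^ 2 ≤ e / 4 := by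
      have h8 : a ≤ 1 := by linarith [min_le_left (1 / 4 : ℝ) (e / 24)]
      have h9 : a ≤ e / 24 := by linarith [min_le_right (1 / 4 : ℝ) (e / 24)]
      rw [sq]
      linarith [mul_le_mul_of_nonneg_left h8 ha0.le]
    have h10 : T * τ * (‖v‖ - p v) ≤ e := by
      have : e * t / 16 ≤ e / 16 := by
        have := mul_le_mul_of_nonneg_left ht1 he0.le
        linarith
      linarith [min_le_right (1 / 4 : ℝ) (e / 24)]
    have h11 : τ * (‖v‖ - p v) ≤ T * τ * (‖v‖ - p v) :=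
      mul_le_mul_of_nonneg_right (le_mul_of_one_le_left hτ0.le hT) (by linarith [hp.le v])
    rw [sub_le_iff_le_add, ← sub_le_iff_le_add', le_div_iff₀ hτ0]
    linarith
  have hfin := hq.le (A v)
  have eq' : q (A v) = c * (q (A x₀) - μ * q (A h)) := by
    rw [hv']; simp only [map_smul, map_sub, smul_eq_mul]
  have ep : p v = c * (p x₀ - μ * p h) := by
    rw [hv']; simp only [map_smul, map_sub, smul_eq_mul]
  have h12 := mul_le_mul_of_nonneg_left hAh (by positivity : 0 ≤ c * μ)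
  have h13 := mul_le_mul_of_nonneg_left hAx hv.le
  have h14 : η = e * K₁ := (div_mul_cancel₀ η hK0.ne').symm
  have h15 : e * (2 / τ) = 2 * e / τ := by ring
  have h16 : e * K₁ * 2 = 2 * e * c + 2 * e * (c * μ) + 2 * (e * (2 / τ)) + 2 * e := by
    rw [hK₁]; ring
  have h17 : 0 ≤ e * (2 / τ) := by positivity
  have h18 : 0 ≤ e * c + e * (c * μ) := by positivity
  linarith

/-- The linear map of a flat piece does not decrease norms transversally. -/
lemma flat_lower_pos {x : X} {π : X →L[ℝ] ℝ} {A : X →L[ℝ] Y} [CompleteSpace X] [CompleteSpace Y]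
    (hx : ‖x‖ = 1) (hπ : ∀ᶠ v in 𝓝 x, ‖v‖ = π v) (hA : ∀ᶠ v in 𝓝 x, f.G v = A v)
    (hD : ∀ u : X, ‖u‖ = 1 → FlatAt u ∨ ∀ ε : ℝ, 0 < ε → ∃ u' : X, ‖u'‖ = 1 ∧ ‖u' - u‖ < ε ∧
      f.ZeroAt u') {v : X} (hv : 0 < π v) : ‖v‖ ≤ ‖A v‖ := by
  have hπx : π x = 1 := by rw [← hπ.self_of_nhds, hx]
  set c := π v with hc
  set d := c⁻¹ • v - x with hd
  have hπd : π d = 0 := by rw [hd, map_sub, map_smul, smul_eq_mul, inv_mul_cancel₀ hv.ne', hπx,
    sub_self]
  set w : ℝ → X := fun s => x + s • d with hw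
  have hwc : Continuous w := by fun_prop
  have hπw : ∀ s, π (w s) = 1 := fun s => by simp [hw, hπx, hπd]
  set good : ℝ → Prop := fun s => ∀ᶠ z in 𝓝 (w s), ‖z‖ = π z ∧ f.G z = A z with hgood
  have hgo : IsOpen {s | good s} :=
    (isOpen_setOfPred_eventually_nhds).preimage hwc
  have h0 : good 0 := by simpa [hgood, hw] using hπ.and hA
  have hgu : ∀ s, good s → ‖w s‖ = 1 := fun s hs => by
    rw [hs.self_of_nhds.1, hπw]
  by_cases hall : ∀ s ∈ Set.Icc (0 : ℝ) 1, good s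
  · have h1 := hall 1 ⟨zero_le_one, le_rfl⟩
    have h2 := h1.self_of_nhds.2
    have e : v = c • w 1 := by simp [hw, hd, smul_smul, hv.ne']
    rw [e, map_smul, ← h2, norm_smul, norm_smul, f.norm_G]
  push Not at hall
  set K : Set ℝ := Set.Icc (0 : ℝ) 1 ∩ {s | good s}ᶜ with hK
  have hKne : K.Nonempty := by
    obtain ⟨s, hs, hs'⟩ := hall
    exact ⟨s, hs, hs'⟩
  have hKc : IsClosed K := isClosed_Icc.inter hgo.isClosed_compl
  have hKb : BddBelow K := ⟨0, fun s hs => hs.1.1⟩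
  set s₀ := sInf K with hs₀
  have hs₀K : s₀ ∈ K := hKc.csInf_mem hKne hKb
  have hbefore : ∀ r, 0 ≤ r → r < s₀ → good r := fun r h1 h2 => by
    by_contra h
    exact absurd (csInf_le hKb ⟨⟨h1, h2.le.trans hs₀K.1.2⟩, h⟩) (not_le.2 h2)
  have hs₀0 : 0 < s₀ := by
    rcases hs₀K.1.1.eq_or_lt with h | h
    · exact absurd (h ▸ h0) hs₀K.2
    · exact h
  set x₀ := w s₀ with hx₀
  have hseg : ∀ r ∈ Set.Icc (0 : ℝ) s₀, ‖w r‖ = 1 ∧ f.G (w r) = A (w r) := by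
    have hsub : closure (Set.Ico (0 : ℝ) s₀) ⊆ {r | ‖w r‖ = 1 ∧ f.G (w r) = A (w r)} := by
      refine closure_minimal (fun r hr => ⟨hgu r (hbefore r hr.1 hr.2),
        (hbefore r hr.1 hr.2).self_of_nhds.2⟩) ?_
      exact (isClosed_eq hwc.norm continuous_const).inter
        (isClosed_eq (f.continuous_G.comp hwc) (A.continuous.comp hwc))
    rw [closure_Ico hs₀0.ne] at hsub
    exact fun r hr => hsub hr
  have hx₀1 : ‖x₀‖ = 1 := (hseg s₀ ⟨hs₀0.le, le_rfl⟩).1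
  have hnf : ¬ FlatAt x₀ := by
    rintro hfl
    obtain ⟨A₁, hA₁⟩ := f.linear_of_flat hx₀1 hfl
    obtain ⟨π₁, hπ₁⟩ := hfl
    have hev : ∀ᶠ r in 𝓝 s₀, ∀ᶠ z in 𝓝 (w r), ‖z‖ = π₁ z ∧ f.G z = A₁ z :=
      hwc.tendsto s₀ |>.eventually (eventually_eventually_nhds.2 (hπ₁.and hA₁))
    obtain ⟨ρ, hρ, hρ'⟩ := Metric.eventually_nhds_iff.1 hev
    set r := s₀ - min ρ s₀ / 2 with hr
    have hmin : 0 < min ρ s₀ := lt_min hρ hs₀0
    have hr1 : good r := hbefore r (by rw [hr]; linarith [min_le_right ρ s₀]) (by rw [hr]; linarith)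
    have hr2 := hρ' (y := r) (by
      rw [Real.dist_eq, hr, sub_sub_cancel_left, abs_neg, abs_of_pos (by positivity)]
      linarith [min_le_left ρ s₀])
    have e1 : π₁ = π :=
      (π₁.hasFDerivAt.congr_of_eventuallyEq ((hr2.mono fun z hz => hz.1))).unique
        (hasFDerivAt_of_flat (hr1.mono fun z hz => hz.1))
    have e2 : A₁ = A :=
      (A₁.hasFDerivAt.congr_of_eventuallyEq ((hr2.mono fun z hz => hz.2))).unique
        (A.hasFDerivAt.congr_of_eventuallyEq (hr1.mono fun z hz => hz.2))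
    refine hs₀K.2 ?_
    have := hπ₁.and hA₁
    rwa [e1, e2] at this
  have hzero := (hD x₀ hx₀1).resolve_left hnf
  set h := x - x₀ with hh
  have hsegh : ∀ t ∈ Set.Icc (0 : ℝ) 1, ‖x₀ + t • h‖ = 1 ∧
      f.G (x₀ + t • h) = A x₀ + t • A h := by
    intro t ht
    have e : x₀ + t • h = w ((1 - t) * s₀) := by simp only [hh, hx₀, hw]; module
    have hmem : (1 - t) * s₀ ∈ Set.Icc 0 s₀ :=
      ⟨mul_nonneg (by linarith [ht.2]) hs₀0.le, mul_le_of_le_one_left hs₀0.le (by linarith [ht.1])⟩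
    obtain ⟨h1, h2⟩ := hseg _ hmem
    rw [e]
    refine ⟨h1, ?_⟩
    rw [h2, ← e, map_add, map_smul]
  set μ := (1 - s₀) / s₀ with hμ
  have hμ0 : 0 ≤ μ := div_nonneg (by linarith [hs₀K.1.2]) hs₀0.le
  have hv' : v = c • (x₀ - μ • h) := by
    have e : x₀ - μ • h = c⁻¹ • v := by
      simp only [hh, hx₀, hw, hd, hμ]
      match_scalars <;> field_simp <;> ring
    rw [e, smul_smul, mul_inv_cancel₀ hv.ne', one_smul]
  exact f.entering_le hv hμ0 hx₀1 hsegh hv' hzero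

/-- The linear map of a flat piece does not decrease norms. -/
lemma flat_lower {x : X} {π : X →L[ℝ] ℝ} {A : X →L[ℝ] Y} [CompleteSpace X] [CompleteSpace Y]
    (hx : ‖x‖ = 1) (hπ : ∀ᶠ v in 𝓝 x, ‖v‖ = π v) (hA : ∀ᶠ v in 𝓝 x, f.G v = A v)
    (hD : ∀ u : X, ‖u‖ = 1 → FlatAt u ∨ ∀ ε : ℝ, 0 < ε → ∃ u' : X, ‖u'‖ = 1 ∧ ‖u' - u‖ < ε ∧
      f.ZeroAt u') (v : X) : ‖v‖ ≤ ‖A v‖ := by
  have key : ∀ u, π u ≠ 0 → ‖u‖ ≤ ‖A u‖ := fun u hu => by
    rcases lt_or_gt_of_ne hu with h | h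
    · simpa using f.flat_lower_pos hx hπ hA hD (v := -u) (by rw [map_neg]; linarith)
    · exact f.flat_lower_pos hx hπ hA hD h
  have hπx : π x = 1 := by rw [← hπ.self_of_nhds, hx]
  by_cases hv : π v = 0
  · have hl : Tendsto (fun t : ℝ => v + t • x) (𝓝[≠] 0) (𝓝 v) :=
      tendsto_nhdsWithin_of_tendsto_nhds ((by fun_prop :
        Continuous fun t : ℝ => v + t • x).tendsto' 0 v (by simp))
    refine le_of_tendsto_of_tendsto hl.norm ((A.continuous.tendsto v).comp hl).norm ?_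
    filter_upwards [self_mem_nhdsWithin] with t ht
    exact key _ (by simpa [hv, hπx] using ht)
  · exact key v hv

variable [CompleteSpace X] [CompleteSpace Y]

/-- The derivative at a flat point is isometric. -/
lemma norm_Ld_flat
    (hD : ∀ u : X, ‖u‖ = 1 → FlatAt u ∨ ∀ ε : ℝ, 0 < ε → ∃ u' : X, ‖u'‖ = 1 ∧ ‖u' - u‖ < ε ∧
      f.ZeroAt u') {x : X} (hx : ‖x‖ = 1) (hfl : FlatAt x) :
    (∀ h, ‖f.Ld x h‖ = ‖h‖) ∧ ∀ h, ‖f.symm.Ld (f.G x) h‖ = ‖h‖ := by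
  obtain ⟨A, hA⟩ := f.linear_of_flat hx hfl
  have hy : ‖f.G x‖ = 1 := by rw [f.norm_G, hx]
  have hfl' := f.flat_G hx hfl
  obtain ⟨A', hA'⟩ := f.symm.linear_of_flat hy hfl'
  rw [symm_G] at hA'
  obtain ⟨π, hπ⟩ := hfl
  obtain ⟨π', hπ'⟩ := hfl'
  have hid : A'.comp A = ContinuousLinearMap.id ℝ X := by
    have hev : ∀ᶠ z in 𝓝 x, A' (A z) = z := by
      filter_upwards [hA, (f.continuous_G.tendsto x).eventually hA'] with z h1 h2
      rw [← h1, ← h2, f.Gi_G]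
    exact ((A'.comp A).hasFDerivAt.congr_of_eventuallyEq
      (hev.mono fun z hz => hz.symm)).unique (hasFDerivAt_id x)
  have hD' : ∀ u : Y, ‖u‖ = 1 → FlatAt u ∨ ∀ ε : ℝ, 0 < ε → ∃ u' : Y, ‖u'‖ = 1 ∧ ‖u' - u‖ < ε ∧
      f.symm.ZeroAt u' := fun u hu => by
    have hu' : ‖f.Gi u‖ = 1 := by rw [f.norm_Gi, hu]
    rcases hD (f.Gi u) hu' with h | h
    · left
      simpa [f.G_Gi] using f.flat_G hu' h
    · refine Or.inr fun ε hε => ?_
      obtain ⟨s, hs, hsu, hz⟩ := h ε hε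
      refine ⟨f.G s, by rw [f.norm_G, hs], ?_, f.zeroAt_symm hs hz⟩
      rwa [← f.G_Gi u, f.dist_unit hs hu']
  have hiso : ∀ v, ‖A v‖ = ‖v‖ := fun v => by
    refine le_antisymm ?_ (f.flat_lower hx hπ hA hD v)
    have h := f.symm.flat_lower hy hπ' (by rwa [symm_G]) hD' (A v)
    rwa [show A' (A v) = v from DFunLike.congr_fun hid v] at h
  have hLd : ∀ h, f.Ld x h = A h := fun h => by
    refine tendsto_nhds_unique (f.tendsto_Ld hx h) (tendsto_const_nhds.congr' ?_)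
    have hl : Tendsto (fun n : ℕ => x + ((2 : ℝ) ^ n)⁻¹ • h) atTop (𝓝 x) := by
      simpa using ((tendsto_inv_atTop_zero.comp
        (tendsto_pow_atTop_atTop_of_one_lt (one_lt_two : (1 : ℝ) < 2))).smul_const h).const_add x
    filter_upwards [hl.eventually hA] with n hn
    rw [dq, hn, hA.self_of_nhds, map_add, add_sub_cancel_left, map_smul, smul_smul,
      mul_inv_cancel₀ (by positivity), one_smul]
  refine ⟨fun h => by rw [hLd, hiso], fun h => ?_⟩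
  have hinv : f.Ld x (f.symm.Ld (f.G x) h) = h := by
    have := f.symm.symm_Ld_Ld hy h
    rwa [symm_G, f.Gi_G] at this
  conv_rhs => rw [← hinv, hLd, hiso]

/-- Flat points and limits of bad points together suffice. -/
theorem linear_of_flat_or_bad
    (h : ∀ u : X, ‖u‖ = 1 → FlatAt u ∨
      ∀ ε : ℝ, 0 < ε → ∃ u' : X, ‖u'‖ = 1 ∧ ‖u' - u‖ < ε ∧ Rough u') :
    ∃ L : X ≃ₗᵢ[ℝ] Y, ∀ v, L v = f.G v := by
  have hD : ∀ u : X, ‖u‖ = 1 → FlatAt u ∨ ∀ ε : ℝ, 0 < ε → ∃ u' : X, ‖u'‖ = 1 ∧ ‖u' - u‖ < ε ∧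
      f.ZeroAt u' := fun u hu => (h u hu).imp id fun k ε hε => by
    obtain ⟨s, hs, hsu, hr⟩ := k ε hε
    exact ⟨s, hs, hsu, f.zeroAt_of_rough hs hr⟩
  set D : Set X := {x | ‖x‖ = 1 ∧ (FlatAt x ∨ Rough x)}
  have hD1 : ∀ z : X, ‖z‖ = 1 → z ∈ closure D := fun z hz => by
    rcases h z hz with hfl | k
    · exact subset_closure ⟨hz, Or.inl hfl⟩
    refine Metric.mem_closure_iff.2 fun ε hε => ?_
    obtain ⟨x, hx, hxz, hr⟩ := k ε hε
    exact ⟨x, ⟨hx, Or.inr hr⟩, by rwa [dist_comm, dist_eq_norm]⟩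
  have hD2 : ∀ w : Y, ‖w‖ = 1 → w ∈ closure (f.G '' D) := fun w hw => by
    refine image_closure_subset_closure_image f.continuous_G
      ⟨f.Gi w, hD1 _ (by rw [f.norm_Gi, hw]), f.G_Gi w⟩
  have h1 := f.lipschitz_of_dense D hD1 (fun x hx => by
    rcases hx.2 with hfl | hr
    · intro k hk
      have h1 := norm_add_le (f.G (x + k) - f.G x - f.Ld x k) (f.Ld x k)
      rw [sub_add_cancel, (f.norm_Ld_flat hD hx.1 hfl).1] at h1
      have h2 := mul_le_mul_of_nonneg_left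
        (add_le_add_right (defect_le_sd' x k) (4 * ‖k‖ ^ 2)) C0_pos.le
      linarith [f.Ld_est hx.1 hk]
    · exact (f.step_bound' hx.1 hr).1)
  have h2 := f.symm.lipschitz_of_dense (f.G '' D) hD2 (by
    rintro _ ⟨x, ⟨hx, hfl | hr⟩, rfl⟩ k hk
    · have hy : ‖f.G x‖ = 1 := by rw [f.norm_G, hx]
      have h1 := norm_add_le (f.symm.G (f.G x + k) - f.symm.G (f.G x) - f.symm.Ld (f.G x) k)
        (f.symm.Ld (f.G x) k)
      rw [sub_add_cancel, (f.norm_Ld_flat hD hx hfl).2] at h1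
      have h2 := mul_le_mul_of_nonneg_left
        (add_le_add_right (defect_le_sd' (f.G x) k) (4 * ‖k‖ ^ 2)) C0_pos.le
      linarith [f.symm.Ld_est hy hk]
    · have := (f.step_bound' hx hr).2 k hk
      rw [symm_G, f.Gi_G]
      exact this)
  let e : X ≃ᵢ Y :=
    { toFun := f.G
      invFun := f.Gi
      left_inv := f.Gi_G
      right_inv := f.G_Gi
      isometry_toFun := Isometry.of_dist_eq fun a b => by
        rw [dist_eq_norm, dist_eq_norm]
        refine le_antisymm (h1 a b) ?_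
        simpa [f.Gi_G] using h2 (f.G a) (f.G b) }
  exact ⟨e.toRealLinearIsometryEquivOfMapZero f.G_zero, fun v => rfl⟩

end PIso

variable [CompleteSpace X] [CompleteSpace Y]

/-- **Main theorem: bad points, dense bad points, or flat points and limits of bad points.** -/
theorem extends_linearly_bad_or_flat
    (h : (StrictConvexSpace ℝ X ∧ ∃ x : X, ‖x‖ = 1 ∧
        ∀ C r : ℝ, 0 < r → ∃ a : X, ‖a‖ < r ∧ C * ‖a‖ ^ 2 < ‖x + a‖ + ‖x - a‖ - 2) ∨
      (∀ z : X, ‖z‖ = 1 → ∀ ε C r : ℝ, 0 < ε → 0 < r → ∃ x a : X, ‖x‖ = 1 ∧ ‖x - z‖ < ε ∧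
        ‖a‖ < r ∧ C * ‖a‖ ^ 2 < ‖x + a‖ + ‖x - a‖ - 2) ∨
      ∀ z : X, ‖z‖ = 1 → (∃ π : X →L[ℝ] ℝ, ∀ᶠ v in 𝓝 z, ‖v‖ = π v) ∨
        ∀ ε : ℝ, 0 < ε → ∃ x : X, ‖x‖ = 1 ∧ ‖x - z‖ < ε ∧
          ∀ C r : ℝ, 0 < r → ∃ a : X, ‖a‖ < r ∧ C * ‖a‖ ^ 2 < ‖x + a‖ + ‖x - a‖ - 2)
    {f : sphere (0 : X) 1 → sphere (0 : Y) 1} (hf : Isometry f)
    (hsurj : Function.Surjective f) :
    ∃ T : X ≃ₗᵢ[ℝ] Y, ∀ x : sphere (0 : X) 1, T (x : X) = (f x : Y) := by
  rcases h with h | h | h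
  · exact extends_linearly_bad (Or.inl h) hf hsurj
  · exact extends_linearly_bad (Or.inr h) hf hsurj
  obtain ⟨s, hs⟩ := exists_pIso hf hsurj
  obtain ⟨T, hT⟩ := s.linear_of_flat_or_bad fun u hu => (h u hu).imp id fun k ε hε => by
    obtain ⟨x, hx, hxu, hr⟩ := k ε hε
    refine ⟨x, hx, hxu, fun C r hr0 => ?_⟩
    obtain ⟨a, ha, h'⟩ := hr C r hr0
    exact ⟨a, ha, by simpa [sd, hx] using h'⟩
  exact ⟨T, fun u => by rw [hT, hs]⟩

end Vale.Agent.P084.Orbit
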