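import Vale.Agent.P084.Bad.Radial

/-!
P084 (Tingley's problem), library: at a point at which the norm is not quadratically smooth the
one-sided derivative of the extension is a surjective linear isometry.
-/

namespace Vale.Agent.P084.Orbit

open Filter Topology Metric

variable {X Y : Type*} [NormedAddCommGroup X] [NormedSpace ℝ X] [NormedAddCommGroup Y]
  [NormedSpace ℝ Y]

namespace PIso

variable (f : PIso X Y) [CompleteSpace Y]

/-- Increments along a fixed direction obey the comparison. -/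
lemma avail_Ld {x : X} (hx : ‖x‖ = 1) (h : X) {e : ℝ} (he : 0 < e) :
    f.Avail x (fun p q => |q (f.Ld x h) - p h - dirN x h * (q (f.G x) - p x)| ≤ e) := by
  set t : ℕ → ℝ := fun n => ((2 : ℝ) ^ n)⁻¹ with ht
  have ht0 : ∀ n, 0 < t n := fun n => by positivity
  have htl : Tendsto t atTop (𝓝 0) :=
    tendsto_inv_atTop_zero.comp (tendsto_pow_atTop_atTop_of_one_lt one_lt_two)
  have hc : ∀ n, ‖t n • h‖ ≤ t n * (‖h‖ + 1) := fun n => by
    rw [norm_smul, Real.norm_of_nonneg (ht0 n).le]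
    exact mul_le_mul_of_nonneg_left (by linarith) (ht0 n).le
  refine f.avail_lim hx (fun n => t n • h) (fun n => t n • h) (fun n => 2 * t n)
    (fun n => t n * (‖h‖ + 1))
    (Eventually.of_forall fun n => ⟨by have := ht0 n; positivity, by have := ht0 n; positivity⟩)
    hc hc (by simpa using htl.mul_const (‖h‖ + 1)) ?_ ?_ ?_ ?_ he
  · have h' : Tendsto (fun n => t n * ((‖h‖ + 1) ^ 2 / 2)) atTop (𝓝 0) := by
      simpa using htl.mul_const ((‖h‖ + 1) ^ 2 / 2)
    refine h'.congr fun n => ?_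
    have := (ht0 n).ne'
    field_simp
  · refine (f.tendsto_Ld hx h).congr fun n => ?_
    simp only [dq, ht]
    rw [← two_smul ℝ (f.G (x + ((2 : ℝ) ^ n)⁻¹ • h) - f.G x), smul_smul]
    congr 1
    field_simp
  · refine tendsto_const_nhds.congr fun n => ?_
    rw [← two_smul ℝ (t n • h), smul_smul, smul_smul, mul_assoc,
      inv_mul_cancel₀ (by have := ht0 n; positivity), one_smul]
  · refine (tendsto_nq x h).congr fun n => ?_
    simp only [nq, ht, hx]
    field_simp
    ring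

/-- The candidate linear map at a point with radial vector `c`. -/
noncomputable def Mc (x : X) (c : Y) (h : X) : Y := f.Ld x h - dirN x h • c

variable {x : X} {c : Y}

/-- Chord functionals correspond under the candidate map. -/
lemma avail_Mc (hx : ‖x‖ = 1)
    (hc : ∀ e : ℝ, 0 < e → f.Avail x (fun p q => |q c - (q (f.G x) - p x)| ≤ e)) (h : X) {e : ℝ}
    (he : 0 < e) : f.Avail x (fun p q => |q (f.Mc x c h) - p h| ≤ e) := by
  set e' := e / (‖h‖ + 2) with he'
  have hh := norm_nonneg h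
  have he'0 : 0 < e' := div_pos he (by linarith)
  refine ((f.avail_Ld hx h he'0).and (hc e' he'0)).mono fun p q hpq => ?_
  obtain ⟨h1, h2⟩ := hpq
  have e0 : q (f.Mc x c h) - p h = (q (f.Ld x h) - p h - dirN x h * (q (f.G x) - p x)) -
      dirN x h * (q c - (q (f.G x) - p x)) := by
    simp only [Mc, map_sub, map_smul, smul_eq_mul]
    ring
  rw [e0]
  refine (abs_sub _ _).trans ((add_le_add h1 ((abs_mul _ _).trans_le
    (mul_le_mul (abs_dirN_le x h) h2 (abs_nonneg _) hh))).trans ?_)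
  have hh' : e' * (‖h‖ + 2) = e := div_mul_cancel₀ e (by linarith)
  linarith

lemma Mc_self (hx : ‖x‖ = 1) : f.Mc x c x = f.G x - c := by
  rw [Mc, f.Ld_self hx, dirN_self, hx, one_smul]

lemma continuous_Mc (hx : ‖x‖ = 1) : Continuous (f.Mc x c) :=
  (f.continuous_Ld hx).sub ((continuous_dirN x).smul continuous_const)

/-- The candidate map is additive. -/
lemma Mc_add (hx : ‖x‖ = 1)
    (hc : ∀ e : ℝ, 0 < e → f.Avail x (fun p q => |q c - (q (f.G x) - p x)| ≤ e)) (h k : X) :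
    f.Mc x c (h + k) = f.Mc x c h + f.Mc x c k := by
  refine sub_eq_zero.1 (eq_zero_of_avail (f := f) hx fun e he => ?_)
  have he3 : 0 < e / 3 := by positivity
  refine (((f.avail_Mc hx hc (h + k) he3).and (f.avail_Mc hx hc h he3)).and
    (f.avail_Mc hx hc k he3)).mono fun p q hpq => ?_
  obtain ⟨⟨h1, h2⟩, h3⟩ := hpq
  rw [map_add] at h1
  rw [map_sub, map_add]
  rw [abs_le] at h1 h2 h3 ⊢
  constructor <;> linarith

/-- Norm derivatives vanish somewhere on a line in a direction which does not enter the ball. -/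
lemma exists_level {Z : Type*} [NormedAddCommGroup Z] [NormedSpace ℝ Z] (z u : Z)
    (h₁ : 0 ≤ dirN z u) (h₂ : 0 ≤ dirN z (-u)) :
    ∃ τ : ℝ, dirN z ((τ + 1) • u) = dirN z (τ • u) := by
  set g : ℝ → ℝ := fun τ => dirN z ((τ + 1) • u) - dirN z (τ • u) with hg
  have hgc : Continuous g :=
    ((continuous_dirN z).comp (by fun_prop)).sub ((continuous_dirN z).comp (by fun_prop))
  have hm : (0 : ℝ) ∈ Set.Icc (g (-1)) (g 0) := by
    simp [hg, dirN_zero, h₁, h₂]
  obtain ⟨τ, -, hτ⟩ := intermediate_value_Icc (by norm_num) hgc.continuousOn hm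
  exact ⟨τ, sub_eq_zero.1 hτ⟩

variable [CompleteSpace X]

/-- The candidate map as a linear isometry. -/
lemma exists_Mlin (hx : ‖x‖ = 1)
    (hc : ∀ e : ℝ, 0 < e → f.Avail x (fun p q => |q c - (q (f.G x) - p x)| ≤ e)) :
    ∃ T : X →ₗᵢ[ℝ] Y, ∀ h, T h = f.Mc x c h := by
  let φ : X →+ Y := AddMonoidHom.mk' (f.Mc x c) (f.Mc_add hx hc)
  let L : X →L[ℝ] Y := φ.toRealLinearMap (f.continuous_Mc hx)
  have hL : ∀ h, L h = f.Mc x c h := fun h => rfl
  have hy : ‖f.G x‖ = 1 := by rw [f.norm_G, hx]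
  have hlev : ∀ h k, dirN x h = dirN x k → ‖L (h - k)‖ = ‖h - k‖ := fun h k he => by
    rw [map_sub, hL, hL, Mc, Mc, he, sub_sub_sub_cancel_right, f.norm_Ld_sub hx he]
  have hlow : ∀ w, ‖w‖ ≤ ‖L w‖ := by
    have main : ∀ w, dirN x (-w) < 0 → ‖w‖ ≤ ‖L w‖ := fun w hd => by
      refine le_of_forall_pos_le_add fun e he => ?_
      obtain ⟨p, q, -, hq, hP, hpw⟩ :=
        (f.avail_Mc hx hc w (half_pos he)).cone hx hd (half_pos he)
      have := hq (L w)
      rw [hL] at this ⊢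
      linarith [(abs_le.1 hP).1]
    intro w
    rcases lt_or_ge (dirN x (-w)) 0 with h₂ | h₂
    · exact main w h₂
    rcases lt_or_ge (dirN x w) 0 with h₁ | h₁
    · simpa using main (-w) (by rwa [neg_neg])
    obtain ⟨τ, hτ⟩ := exists_level x w h₁ h₂
    have := hlev _ _ hτ
    rw [show (τ + 1) • w - τ • w = w by module] at this
    exact this.ge
  have hup : ∀ w, ‖L w‖ ≤ ‖w‖ := by
    have main : ∀ w, dirN (f.G x) (-L w) < 0 → ‖L w‖ ≤ ‖w‖ := fun w hd => by
      refine le_of_forall_pos_le_add fun e he => ?_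
      obtain ⟨q, p, -, hp, hP, hqu⟩ :=
        ((f.avail_Mc hx hc w (half_pos he)).symm hx).cone hy hd (half_pos he)
      have := hp w
      rw [← hL] at hP
      linarith [(abs_le.1 hP).2]
    intro w
    rcases lt_or_ge (dirN (f.G x) (-L w)) 0 with h₂ | h₂
    · exact main w h₂
    rcases lt_or_ge (dirN (f.G x) (L w)) 0 with h₁ | h₁
    · simpa using main (-w) (by rwa [map_neg, neg_neg])
    obtain ⟨τ, hτ⟩ := exists_level (f.G x) (L w) h₁ h₂
    set h' := τ • L w
    set k' := (τ + 1) • L w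
    set h := f.symm.Ld (f.G x) h'
    set k := f.symm.Ld (f.G x) k'
    have hinv : ∀ v, f.Ld x (f.symm.Ld (f.G x) v) = v := fun v => by
      have := f.symm.symm_Ld_Ld hy v
      rwa [symm_G, f.Gi_G] at this
    have he : dirN x k = dirN x h := by
      rw [← f.dirN_Ld hx k, ← f.dirN_Ld hx h, hinv, hinv, hτ]
    have e1 : L (k - h) = L w := by
      rw [map_sub, hL, hL, Mc, Mc, he, sub_sub_sub_cancel_right, hinv, hinv]
      simp only [k', h']
      module
    have e2 : k - h = w := by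
      refine sub_eq_zero.1 (norm_le_zero_iff.1 ((hlow _).trans ?_))
      rw [map_sub L (k - h), e1, sub_self, norm_zero]
    have := hlev k h he
    rw [e2] at this
    exact this.le
  exact ⟨⟨(L : X →ₗ[ℝ] Y), fun w => le_antisymm (hup w) (hlow w)⟩, hL⟩

/-- The orbit of the radial mismatch leaves the sphere unless it is zero. -/
lemma radial_eq_zero (hx : ‖x‖ = 1)
    (hc : ∀ e : ℝ, 0 < e → f.Avail x (fun p q => |q c - (q (f.G x) - p x)| ≤ e)) : c = 0 := by
  obtain ⟨T, hT⟩ := f.exists_Mlin hx hc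
  by_contra hne
  have hcn : 0 < ‖c‖ := norm_pos_iff.2 hne
  set y := f.G x with hy
  have step : ∀ η, 0 < η → ∀ s, ‖s‖ = 1 → ∃ s', ‖s'‖ = 1 ∧
      ‖y - T s‖ - ‖x - s‖ - 4 * η ≤ ‖y - T s'‖ - ‖x - s'‖ ∧ ‖x - s'‖ = ‖y - T s‖ := by
    intro η hη s hs
    have hs' : ‖f.Gi (T s)‖ = 1 := by rw [f.norm_Gi, T.norm_map, hs]
    set s' := f.Gi (T s) with hs'def
    have hl : ‖x - s'‖ = ‖y - T s‖ := by rw [← f.dist_unit hx hs', hs'def, f.G_Gi]
    obtain ⟨p, q, hp, hq, ⟨h1, h2⟩, h3, h4⟩ :=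
      ((f.avail_Mc hx hc s hη).and (f.avail_Mc hx hc s' hη)).chord hx hs' hη
    rw [← hT] at h1 h2
    rw [hs'def, f.G_Gi, ← hy, map_sub q, ← hs'def] at h4
    rw [map_sub] at h3
    have h5 := hp (x - s)
    have h6 := hq (y - T s')
    rw [map_sub] at h5 h6
    refine ⟨s', hs', ?_, hl⟩
    linarith [(abs_le.1 h1).1, (abs_le.1 h2).2]
  obtain ⟨N, hN⟩ := exists_nat_gt (4 / ‖c‖)
  have hN0 : (0 : ℝ) < N := lt_trans (by positivity) hN
  set η : ℝ := ‖c‖ / (8 * N) with hη
  have hη0 : 0 < η := by positivity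
  suffices h : ∀ n : ℕ, n ≤ N → ∃ s, ‖s‖ = 1 ∧ ‖c‖ - n * (4 * η) ≤ ‖y - T s‖ - ‖x - s‖ ∧
      n * (‖c‖ / 2) ≤ ‖x - s‖ by
    obtain ⟨s, hs, -, h2⟩ := h N le_rfl
    have := norm_sub_le x s
    rw [hx, hs] at this
    rw [div_lt_iff₀ hcn] at hN
    linarith
  intro n
  induction n with
  | zero =>
    refine fun _ => ⟨x, hx, ?_, by simp⟩
    rw [hT, f.Mc_self hx, ← hy, sub_sub_cancel, sub_self, norm_zero]
    simp
  | succ n ih =>
    intro hn
    obtain ⟨s, hs, h1, h2⟩ := ih (by omega)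
    obtain ⟨s', hs', h3, h4⟩ := step η hη0 s hs
    have hnN : (n : ℝ) * (4 * η) ≤ ‖c‖ / 2 := by
      have h5 : (n : ℝ) * (4 * η) ≤ N * (4 * η) := by
        refine mul_le_mul_of_nonneg_right ?_ (by positivity)
        exact_mod_cast (by omega : n ≤ N)
      rwa [show (N : ℝ) * (4 * η) = ‖c‖ / 2 by rw [hη]; field_simp; ring] at h5
    refine ⟨s', hs', ?_, ?_⟩ <;> push_cast <;> linarith

/-- **At a bad point the derivative is a surjective linear isometry**, and chord functionals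
correspond under it. -/
theorem exists_isometry' (hx : ‖x‖ = 1) (hr : Rough x) :
    ∃ T : X ≃ₗᵢ[ℝ] Y, (∀ h, f.Ld x h = T h) ∧
      ∀ h : X, ∀ e : ℝ, 0 < e → f.Avail x (fun p q => |q (T h) - p h| ≤ e) := by
  obtain ⟨c, hc⟩ := f.exists_radial hx hr
  obtain ⟨T, hT⟩ := f.exists_Mlin hx hc
  have hc0 := f.radial_eq_zero hx hc
  have hLd : ∀ h, f.Ld x h = T h := fun h => by simp [hT, Mc, hc0]
  have hs : Function.Surjective T := fun v => by
    have hy : ‖f.G x‖ = 1 := by rw [f.norm_G, hx]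
    refine ⟨f.symm.Ld (f.G x) v, ?_⟩
    have := f.symm.symm_Ld_Ld hy v
    rw [symm_G, f.Gi_G] at this
    rw [← hLd]
    exact this
  refine ⟨LinearIsometryEquiv.ofSurjective T hs, hLd, fun h e he => ?_⟩
  have := f.avail_Mc hx hc h he
  simpa [hT] using this

end PIso

end Vale.Agent.P084.Orbit
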