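import Vale.Agent.P084.Bad.Frame
import Vale.Agent.P084.Orbit.Main

/-!
P084 (Tingley's problem), library: Banach spaces whose norm is nowhere locally uniformly
quadratically smooth, and strictly convex spaces whose norm is not quadratically smooth at one
point, have the Mazur–Ulam property.
-/

namespace Vale.Agent.P084.Orbit

open Filter Topology Metric

variable {X Y : Type*} [NormedAddCommGroup X] [NormedSpace ℝ X] [NormedAddCommGroup Y]
  [NormedSpace ℝ Y]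

namespace PIso

variable (f : PIso X Y) [CompleteSpace X] [CompleteSpace Y]

/-- In the strictly convex case one bad point suffices. -/
theorem linear_of_strict_bad [StrictConvexSpace ℝ X] {x : X} (hx : ‖x‖ = 1) (hr : Rough x) :
    ∃ L : X ≃ₗᵢ[ℝ] Y, ∀ v, L v = f.G v := by
  obtain ⟨T, hT, hA⟩ := f.exists_isometry' hx hr
  have hTx : T x = f.G x := by rw [← hT, f.Ld_self hx]
  have hunit : ∀ s : X, ‖s‖ = 1 → f.G s = T s := by
    intro s hs
    set l := ‖x - s‖ with hl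
    set d' := f.G x - f.G s with hd'
    have hd'n : ‖d'‖ = l := f.dist_unit hx hs
    have hsum : ‖d' + T (x - s)‖ = 2 * l := by
      refine le_antisymm ((norm_add_le _ _).trans (by rw [hd'n, T.norm_map]; linarith))
        (le_of_forall_pos_le_add fun e he => ?_)
      obtain ⟨p, q, -, hq, h1, h2, h3⟩ :=
        (hA (x - s) (e / 3) (by positivity)).chord hx hs (by positivity : (0 : ℝ) < e / 3)
      have h4 := hq (d' + T (x - s))
      rw [map_add] at h4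
      linarith [(abs_le.1 h1).1]
    have h1 : T.symm d' = x - s := by
      have hn : ‖T.symm d'‖ = l := by rw [T.symm.norm_map, hd'n]
      refine eq_of_norm_eq_of_norm_add_eq (by rw [hn]) ?_
      rw [← T.norm_map, map_add, T.apply_symm_apply, hsum, hn]
      ring
    have h2 : d' = T (x - s) := by rw [← h1, T.apply_symm_apply]
    rw [hd', map_sub, hTx] at h2
    exact sub_right_injective h2
  refine ⟨T, fun v => ?_⟩
  rcases eq_or_ne v 0 with rfl | hv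
  · rw [map_zero, f.G_zero]
  · have e : v = ‖v‖ • (‖v‖⁻¹ • v) := by simp [smul_smul, hv]
    rw [e, map_smul, f.G_smul _ (norm_nonneg v)]
    exact congrArg (‖v‖ • ·) (hunit _ (norm_smul_inv_norm hv)).symm

/-- Increments at a bad point are bounded in both directions. -/
lemma step_bound' {x : X} (hx : ‖x‖ = 1) (hr : Rough x) :
    (∀ h : X, ‖h‖ ≤ 1 / 65536 →
        ‖f.G (x + h) - f.G x‖ ≤ ‖h‖ + C0 * (sd x h + 4 * ‖h‖ ^ 2)) ∧
      ∀ h : Y, ‖h‖ ≤ 1 / 65536 →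
        ‖f.Gi (f.G x + h) - x‖ ≤ ‖h‖ + C0 * (sd (f.G x) h + 4 * ‖h‖ ^ 2) := by
  obtain ⟨T, hT, -⟩ := f.exists_isometry' hx hr
  have hy : ‖f.G x‖ = 1 := by rw [f.norm_G, hx]
  refine ⟨fun h hh => ?_, fun h hh => ?_⟩
  · have h1 := norm_add_le (f.G (x + h) - f.G x - f.Ld x h) (f.Ld x h)
    rw [sub_add_cancel, hT, T.norm_map, ← hT] at h1
    have h2 := mul_le_mul_of_nonneg_left
      (add_le_add_right (defect_le_sd' x h) (4 * ‖h‖ ^ 2)) C0_pos.le
    linarith [f.Ld_est hx hh]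
  · have e : f.symm.Ld (f.G x) h = T.symm h := by
      conv_lhs => rw [← T.apply_symm_apply h, ← hT, f.symm_Ld_Ld hx]
    have h1 := norm_add_le (f.Gi (f.G x + h) - f.Gi (f.G x) - f.symm.Ld (f.G x) h)
      (f.symm.Ld (f.G x) h)
    rw [sub_add_cancel, f.Gi_G, e, T.symm.norm_map, ← e] at h1
    have h2 := mul_le_mul_of_nonneg_left
      (add_le_add_right (defect_le_sd' (f.G x) h) (4 * ‖h‖ ^ 2)) C0_pos.le
    have h3 := f.symm.Ld_est hy hh
    rw [symm_G, f.Gi_G] at h3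
    linarith

/-- A dense set of bad points suffices. -/
theorem linear_of_dense_bad
    (h : ∀ z : X, ‖z‖ = 1 → ∀ ε : ℝ, 0 < ε → ∃ x : X, ‖x‖ = 1 ∧ ‖x - z‖ < ε ∧ Rough x) :
    ∃ L : X ≃ₗᵢ[ℝ] Y, ∀ v, L v = f.G v := by
  set D : Set X := {x | ‖x‖ = 1 ∧ Rough x}
  have hD1 : ∀ z : X, ‖z‖ = 1 → z ∈ closure D := fun z hz => by
    refine Metric.mem_closure_iff.2 fun ε hε => ?_
    obtain ⟨x, hx, hxz, hr⟩ := h z hz ε hε
    exact ⟨x, ⟨hx, hr⟩, by rwa [dist_comm, dist_eq_norm]⟩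
  have hD2 : ∀ w : Y, ‖w‖ = 1 → w ∈ closure (f.G '' D) := fun w hw => by
    refine image_closure_subset_closure_image f.continuous_G
      ⟨f.Gi w, hD1 _ (by rw [f.norm_Gi, hw]), f.G_Gi w⟩
  have h1 := f.lipschitz_of_dense D hD1 (fun x hx => (f.step_bound' hx.1 hx.2).1)
  have h2 := f.symm.lipschitz_of_dense (f.G '' D) hD2 (by
    rintro _ ⟨x, hx, rfl⟩ k hk
    have := (f.step_bound' hx.1 hx.2).2 k hk
    rw [symm_G, f.Gi_G]
    exact this)
  let e : X ≃ᵢ Y :=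
    { toFun := f.G
      invFun := f.Gi
      left_inv := f.Gi_G
      right_inv := f.G_Gi
      isometry_toFun := Isometry.of_dist_eq fun a b => by
        rw [dist_eq_norm, dist_eq_norm]
        refine le_antisymm (h1 a b) ?_
        simpa [f.Gi_G] using h2 (f.G a) (f.G b) }
  exact ⟨e.toRealLinearIsometryEquivOfMapZero f.G_zero, fun v => rfl⟩

end PIso

/-- If the norm is nowhere uniformly quadratically smooth, bad points are dense. -/
lemma dense_rough_of_nowhere [CompleteSpace X]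
    (h : ∀ z : X, ‖z‖ = 1 → ∀ ε C r : ℝ, 0 < ε → 0 < r → ∃ x a : X, ‖x‖ = 1 ∧ ‖x - z‖ < ε ∧
      ‖a‖ < r ∧ C * ‖a‖ ^ 2 < ‖x + a‖ + ‖x - a‖ - 2) :
    ∀ z : X, ‖z‖ = 1 → ∀ ε : ℝ, 0 < ε → ∃ x : X, ‖x‖ = 1 ∧ ‖x - z‖ < ε ∧ Rough x := by
  haveI : CompleteSpace (sphere (0 : X) 1) := isClosed_sphere.completeSpace_coe
  let O : ℕ → Set (sphere (0 : X) 1) := fun n =>
    ⋃ a ∈ {a : X | ‖a‖ < ((n : ℝ) + 1)⁻¹}, {x | (n : ℝ) * ‖a‖ ^ 2 < sd (x : X) a}
  have hO : ∀ n, IsOpen (O n) := fun n => isOpen_biUnion fun a _ =>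
    isOpen_lt continuous_const (by unfold sd; fun_prop)
  have hd : ∀ n, Dense (O n) := fun n => Metric.dense_iff.2 fun z ε hε => by
    obtain ⟨x, a, hx, hxz, ha, hlt⟩ :=
      h z (mem_sphere_zero_iff_norm.1 z.2) ε n (((n : ℝ) + 1)⁻¹) hε (by positivity)
    refine ⟨⟨x, mem_sphere_zero_iff_norm.2 hx⟩, ?_, Set.mem_biUnion ha ?_⟩
    · rwa [Metric.mem_ball, Subtype.dist_eq, dist_eq_norm]
    · show (n : ℝ) * ‖a‖ ^ 2 < sd x a
      simpa [sd, hx] using hlt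
  intro z hz ε hε
  obtain ⟨x, hxb, hx⟩ := Metric.dense_iff.1 (dense_iInter_of_isOpen hO hd)
    ⟨z, mem_sphere_zero_iff_norm.2 hz⟩ ε hε
  rw [Metric.mem_ball, Subtype.dist_eq, dist_eq_norm] at hxb
  refine ⟨x, mem_sphere_zero_iff_norm.1 x.2, hxb, fun C r hr => ?_⟩
  obtain ⟨n, hn⟩ := exists_nat_gt (max C r⁻¹)
  obtain ⟨a, ha, hlt⟩ := Set.mem_iUnion₂.1 (Set.mem_iInter.1 hx n)
  refine ⟨a, lt_of_lt_of_le ha ?_, lt_of_le_of_lt ?_ hlt⟩
  · rw [inv_le_comm₀ (by positivity) hr]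
    linarith [le_max_right C r⁻¹]
  · exact mul_le_mul_of_nonneg_right ((le_max_left _ _).trans hn.le) (sq_nonneg _)

/-- **Main theorem for bad points.** -/
theorem extends_linearly_bad [CompleteSpace X] [CompleteSpace Y]
    (h : (StrictConvexSpace ℝ X ∧ ∃ x : X, ‖x‖ = 1 ∧
        ∀ C r : ℝ, 0 < r → ∃ a : X, ‖a‖ < r ∧ C * ‖a‖ ^ 2 < ‖x + a‖ + ‖x - a‖ - 2) ∨
      ∀ z : X, ‖z‖ = 1 → ∀ ε C r : ℝ, 0 < ε → 0 < r → ∃ x a : X, ‖x‖ = 1 ∧ ‖x - z‖ < ε ∧
        ‖a‖ < r ∧ C * ‖a‖ ^ 2 < ‖x + a‖ + ‖x - a‖ - 2)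
    {f : sphere (0 : X) 1 → sphere (0 : Y) 1} (hf : Isometry f)
    (hsurj : Function.Surjective f) :
    ∃ T : X ≃ₗᵢ[ℝ] Y, ∀ x : sphere (0 : X) 1, T (x : X) = (f x : Y) := by
  obtain ⟨s, hs⟩ := exists_pIso hf hsurj
  rcases h with ⟨hX, x, hx, hr⟩ | hd
  · obtain ⟨T, hT⟩ := s.linear_of_strict_bad hx fun C r hr0 => by
      obtain ⟨a, ha, h⟩ := hr C r hr0
      exact ⟨a, ha, by simpa [sd, hx] using h⟩
    exact ⟨T, fun u => by rw [hT, hs]⟩
  · obtain ⟨T, hT⟩ := s.linear_of_dense_bad (dense_rough_of_nowhere hd)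
    exact ⟨T, fun u => by rw [hT, hs]⟩

end Vale.Agent.P084.Orbit
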