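import Vale.Agent.P084.Bad.Target
import Vale.Agent.P084.Orbit.Main

/-!
P084 (Tingley's problem), library: at a point at which the norm is not quadratically smooth the
normalised second differences of the extension converge in norm.
-/

namespace Vale.Agent.P084.Orbit

open Filter Topology Metric

variable {X Y : Type*} [NormedAddCommGroup X] [NormedSpace ℝ X] [NormedAddCommGroup Y]
  [NormedSpace ℝ Y]

namespace PIso

variable (f : PIso X Y)

/-- Two normalised second differences at very different scales are close. -/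
lemma dist_radial_le {x a b : X} (hx : ‖x‖ = 1) {δ δ' η : ℝ} (hδ : δ = 1 / 3072)
    (ha : a ≠ 0) (hb : b ≠ 0) (hΦa : 0 < sd x a) (hΦb : 0 < sd x b)
    (haδ : 24 * ‖a‖ ≤ δ) (hδ'e : δ' = ‖a‖ ^ 2 / 12) (hbδ : 24 * ‖b‖ ≤ δ')
    (_hbε : ‖b‖ ^ 2 ≤ ‖a‖ ^ 2 / 2)
    (hea : 9234 * ‖a‖ ^ 2 / δ ≤ η * sd x a) (heb : 9234 * ‖b‖ ^ 2 / δ' ≤ η * sd x b) :
    ‖(sd x a)⁻¹ • f.E2 x a - (sd x b)⁻¹ • f.E2 x b‖ ≤ 128 * η := by
  set u := (sd x a)⁻¹ • f.E2 x a - (sd x b)⁻¹ • f.E2 x b with hu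
  have han : 0 < ‖a‖ := norm_pos_iff.2 ha
  have hbn : 0 < ‖b‖ := norm_pos_iff.2 hb
  have hδ'4 : δ' ≤ 1 / 4 := by
    have h1 : ‖a‖ ≤ 1 := by linarith
    have := mul_le_mul h1 h1 han.le zero_le_one
    rw [hδ'e, sq]
    linarith
  have h1026 : ∀ c d : ℝ, 0 ≤ c → 0 < d → 1026 * c / d ≤ 9234 * c / d := fun c d hc hd => by
    gcongr
    norm_num
  have hres : ∀ (c : X) p q, sd x c ≠ 0 →
      (sd x c)⁻¹ * f.res x c (-c) p q =
        q ((sd x c)⁻¹ • f.E2 x c) - (q (f.G x) - p x) := by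
    intro c p q hc
    simp only [res, E2, sd, map_smul, map_add, map_sub, map_neg, smul_eq_mul, ← sub_eq_add_neg,
      hx, mul_one] at hc ⊢
    field_simp
    ring
  have hbd : ∀ c : X, ‖-c‖ ≤ ‖c‖ := fun c => (norm_neg c).le
  obtain ⟨w, hw, hcase⟩ := f.exists_target hx u
  rcases hcase with hcase | hcase
  · -- upper at the coarse scale, lower at the fine one
    obtain ⟨s₁, hs₁, hb₁, k₁⟩ :=
      f.stage_upper hx hw han le_rfl (hbd a) (by linarith : 8 * ‖a‖ ≤ δ) (by rw [hδ]; norm_num)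
    obtain ⟨s₂, hs₂, hb₂, k₂⟩ := f.stage_lower hx hs₁ hbn le_rfl (hbd b) hbδ hδ'4
    obtain ⟨p, hp⟩ := exists_supp (x - s₂)
    obtain ⟨q, hq⟩ := exists_supp (f.G x - f.G s₂)
    have e₁ := k₁ s₂ hs₂ (hb₂.mono (by rw [hδ'e]; linarith [sq_nonneg ‖a‖])) p q hp hq
    have e₂ := k₂ s₂ hs₂ ((beyond_refl x s₂).mono (sq_nonneg _)) p q hp hq
    have q₁ : q ((sd x a)⁻¹ • f.E2 x a) - (q (f.G x) - p x) ≤ η := by
      rw [← hres a p q hΦa.ne', inv_mul_le_iff₀ hΦa]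
      linarith [h1026 (‖a‖ ^ 2) δ (sq_nonneg _) (by linarith)]
    have q₂ : -η ≤ q ((sd x b)⁻¹ • f.E2 x b) - (q (f.G x) - p x) := by
      rw [← hres b p q hΦb.ne', le_inv_mul_iff₀ hΦb]
      linarith
    have hq' := hcase (6 * δ + 6 * δ') s₂
      (by rw [hδ'e, hδ]; have h1 : ‖a‖ ≤ 1 / 73728 := (by linarith)
          have := mul_le_mul h1 h1 han.le (by norm_num)
          rw [sq]; linarith) hs₂ (hb₁.trans hb₂) q hq
    rw [hu, map_sub] at hq'
    rw [← hu] at hq'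
    linarith
  · -- lower at the coarse scale, upper at the fine one
    obtain ⟨s₁, hs₁, hb₁, k₁⟩ :=
      f.stage_lower hx hw han le_rfl (hbd a) haδ (by rw [hδ]; norm_num)
    obtain ⟨s₂, hs₂, hb₂, k₂⟩ :=
      f.stage_upper hx hs₁ hbn le_rfl (hbd b) (by linarith : 8 * ‖b‖ ≤ δ') hδ'4
    obtain ⟨p, hp⟩ := exists_supp (x - s₂)
    obtain ⟨q, hq⟩ := exists_supp (f.G x - f.G s₂)
    have e₁ := k₁ s₂ hs₂ (hb₂.mono (by rw [hδ'e]; linarith [sq_nonneg ‖a‖])) p q hp hq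
    have e₂ := k₂ s₂ hs₂ ((beyond_refl x s₂).mono (sq_nonneg _)) p q hp hq
    have q₁ : -η ≤ q ((sd x a)⁻¹ • f.E2 x a) - (q (f.G x) - p x) := by
      rw [← hres a p q hΦa.ne', le_inv_mul_iff₀ hΦa]
      linarith
    have q₂ : q ((sd x b)⁻¹ • f.E2 x b) - (q (f.G x) - p x) ≤ η := by
      rw [← hres b p q hΦb.ne', inv_mul_le_iff₀ hΦb]
      linarith [h1026 (‖b‖ ^ 2) δ' (sq_nonneg _) (by linarith)]
    have hq' := hcase (6 * δ + 6 * δ') s₂
      (by rw [hδ'e, hδ]; have h1 : ‖a‖ ≤ 1 / 73728 := (by linarith)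
          have := mul_le_mul h1 h1 han.le (by norm_num)
          rw [sq]; linarith) hs₂ (hb₁.trans hb₂) q hq
    rw [hu, map_sub] at hq'
    rw [← hu] at hq'
    linarith

/-- Rough points have sequences with dominating second differences. -/
lemma exists_seq {x : X} (hx : ‖x‖ = 1) (hr : Rough x) :
    ∃ a : ℕ → X, (∀ n, a n ≠ 0 ∧ 0 < sd x (a n)) ∧ Tendsto (fun n => ‖a n‖) atTop (𝓝 0) ∧
      Tendsto (fun n => ‖a n‖ ^ 2 / sd x (a n)) atTop (𝓝 0) := by
  choose a ha hsd using fun n : ℕ => hr ((n : ℝ) + 1) (((n : ℝ) + 1)⁻¹) (by positivity)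
  have hpos : ∀ n, 0 < sd x (a n) := fun n => lt_of_le_of_lt (by positivity) (hsd n)
  have h0 : Tendsto (fun n : ℕ => ((n : ℝ) + 1)⁻¹) atTop (𝓝 0) := by
    simpa [one_div] using tendsto_one_div_add_atTop_nhds_zero_nat (𝕜 := ℝ)
  refine ⟨a, fun n => ⟨fun h => ?_, hpos n⟩, squeeze_zero (fun _ => norm_nonneg _)
    (fun n => (ha n).le) h0, squeeze_zero (fun n => by have := hpos n; positivity)
    (fun n => ?_) h0⟩
  · have := hpos n
    simp [h, sd, hx] at this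
    linarith
  · rw [div_le_iff₀ (hpos n), le_inv_mul_iff₀ (by positivity)]
    exact (hsd n).le

variable [CompleteSpace Y]

/-- **The radial image exists in norm.** -/
theorem exists_radial {x : X} (hx : ‖x‖ = 1) (hr : Rough x) :
    ∃ c : Y, ∀ e : ℝ, 0 < e → f.Avail x (fun p q => |q c - (q (f.G x) - p x)| ≤ e) := by
  obtain ⟨a, ha, ha0, hra⟩ := exists_seq hx hr
  set v := fun n => (sd x (a n))⁻¹ • f.E2 x (a n) with hv
  set δ : ℝ := 1 / 3072 with hδ
  have hc : CauchySeq v := by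
    refine Metric.cauchySeq_iff.2 fun η hη => ?_
    have hη' : (0 : ℝ) < η / 1024 := by positivity
    have hev : ∀ δ' : ℝ, 0 < δ' → ∀ᶠ n in atTop, 24 * ‖a n‖ ≤ δ' ∧
        9234 * ‖a n‖ ^ 2 / δ' ≤ η / 1024 * sd x (a n) := by
      intro δ' hδ'
      filter_upwards [ha0.eventually_le_const (by positivity : (0 : ℝ) < δ' / 24),
        hra.eventually_le_const (by positivity : (0 : ℝ) < η / 1024 * δ' / 9234)] with n h1 h2
      refine ⟨by linarith, ?_⟩
      rw [div_le_iff₀ (ha n).2] at h2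
      rw [div_le_iff₀ hδ']
      linarith
    obtain ⟨N, hN⟩ := eventually_atTop.1 (hev δ (by rw [hδ]; norm_num))
    have hnear : ∀ n, N ≤ n → ∀ᶠ m in atTop, ‖v n - v m‖ ≤ 128 * (η / 1024) := by
      intro n hn
      have han : 0 < ‖a n‖ := norm_pos_iff.2 (ha n).1
      filter_upwards [hev (‖a n‖ ^ 2 / 12) (by positivity),
        (by simpa using ha0.pow 2 : Tendsto (fun m => ‖a m‖ ^ 2) atTop (𝓝 0)).eventually_le_const
          (by positivity : (0 : ℝ) < ‖a n‖ ^ 2 / 2)] with m hm hm2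
      exact f.dist_radial_le hx hδ (ha n).1 (ha m).1 (ha n).2 (ha m).2 (hN n hn).1 rfl hm.1 hm2
        (hN n hn).2 hm.2
    refine ⟨N, fun n hn n' hn' => ?_⟩
    obtain ⟨m, h1, h2⟩ := ((hnear n hn).and (hnear n' hn')).exists
    rw [dist_eq_norm]
    have := norm_sub_le_norm_sub_add_norm_sub (v n) (v m) (v n')
    rw [norm_sub_rev (v m)] at this
    linarith
  obtain ⟨c, hc'⟩ := cauchySeq_tendsto_of_complete hc
  refine ⟨c, fun e he => ?_⟩
  refine (f.avail_lim hx a (fun n => -a n) (fun n => sd x (a n)) (fun n => ‖a n‖) (A := 0)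
    (κ := 1) (Eventually.of_forall fun n => ⟨(ha n).2, norm_pos_iff.2 (ha n).1⟩)
    (fun n => le_rfl) (fun n => (norm_neg _).le) ha0 hra ?_ ?_ ?_ he).mono
    fun p q h => by simpa using h
  · refine hc'.congr fun n => ?_
    simp only [hv, E2, ← sub_eq_add_neg]
    module
  · simp
  · refine tendsto_const_nhds.congr fun n => ?_
    have : ‖x + a n‖ + ‖x + -a n‖ - 2 = sd x (a n) := by
      rw [sd, hx, ← sub_eq_add_neg, mul_one]
    rw [this, inv_mul_cancel₀ (ha n).2.ne']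

end PIso

end Vale.Agent.P084.Orbit
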