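import Vale.Agent.P084.Bad.Chord

/-!
P084 (Tingley's problem), library: chord functionals are norming with a universal constant, and
norming on the cones of entering directions.
-/

namespace Vale.Agent.P084.Orbit

open Filter Topology Metric

variable {X Y : Type*} [NormedAddCommGroup X] [NormedSpace ℝ X] [NormedAddCommGroup Y]
  [NormedSpace ℝ Y]

namespace PIso

variable (f : PIso X Y)

/-- Chord functionals at scale one are uniformly norming. -/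
lemma exists_target {x : X} (hx : ‖x‖ = 1) (u : Y) :
    ∃ w, ‖w‖ = 1 ∧
      ((∀ δ s, δ ≤ 1 / 256 → ‖s‖ = 1 → Beyond x δ w s → ∀ q : Y →L[ℝ] ℝ,
          Supp (f.G x - f.G s) q → ‖u‖ / 64 ≤ q u) ∨
        ∀ δ s, δ ≤ 1 / 256 → ‖s‖ = 1 → Beyond x δ w s → ∀ q : Y →L[ℝ] ℝ,
          Supp (f.G x - f.G s) q → q u ≤ -(‖u‖ / 64)) := by
  rcases eq_or_ne u 0 with rfl | hu0
  · exact ⟨x, hx, Or.inl fun δ s _ _ _ q _ => by simp⟩
  set y := f.G x with hy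
  have hy1 : ‖y‖ = 1 := by rw [hy, f.norm_G, hx]
  have hn : 0 < ‖u‖ := norm_pos_iff.2 hu0
  set v := ‖u‖⁻¹ • u with hv
  have hv1 : ‖v‖ = 1 := norm_smul_inv_norm hu0
  have eu : u = ‖u‖ • v := by simp [hv, smul_smul, hn.ne']
  have hqu : ∀ q : Y →L[ℝ] ℝ, q u = ‖u‖ * q v := fun q => by
    conv_lhs => rw [eu]
    rw [map_smul, smul_eq_mul]
  have hk : ∀ k : Y, ‖k‖ < 1 → ∃ w, ‖w‖ = 1 ∧ ∀ δ s, ‖s‖ = 1 → Beyond x δ w s →
      ∀ q : Y →L[ℝ] ℝ, Supp (y - f.G s) q → ‖y - k‖ - δ ≤ q (y - k) := by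
    intro k hk
    obtain ⟨t, ht, hts⟩ := exists_beyond hy1 hk
    set z := y - t • (y - k) with hz
    refine ⟨f.Gi z, by rw [f.norm_Gi, hts], fun δ s hs hb q hq => ?_⟩
    have hb' := (f.beyond_G hx (by rw [f.norm_Gi, hts]) hs).2 hb
    rw [f.G_Gi] at hb'
    have h := hb'.apply hq
    rw [← hy, hz, sub_sub_cancel, norm_smul, Real.norm_of_nonneg (by linarith), map_smul,
      smul_eq_mul] at h
    have hδ := mul_le_mul_of_nonneg_right ht hb'.nonneg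
    have h2 : t * (‖y - k‖ - δ) ≤ t * q (y - k) := by linarith
    exact le_of_mul_le_mul_left h2 (by linarith)
  have hhalf : ∀ z : Y, ‖z‖ = 1 → ‖(1 / 2 : ℝ) • y + (1 / 4 : ℝ) • z‖ < 1 := fun z hz => by
    refine (norm_add_le _ _).trans_lt ?_
    rw [norm_smul, norm_smul, hy1, hz]
    norm_num
  have hqy : ∀ {s : X} {q : Y →L[ℝ] ℝ}, Supp (y - f.G s) q → q y ≤ 1 := fun hq => by
    have := hq.le y
    rwa [hy1] at this
  rcases le_or_gt (1 / 2 + 1 / 64) ‖(1 / 2 : ℝ) • y + (1 / 4 : ℝ) • v‖ with hp | hp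
  · obtain ⟨w, hw, h⟩ := hk _ (hhalf (-v) (by rw [norm_neg, hv1]))
    refine ⟨w, hw, Or.inl fun δ s hδ hs hb q hq => ?_⟩
    have h1 := h δ s hs hb q hq
    rw [show y - ((1 / 2 : ℝ) • y + (1 / 4 : ℝ) • (-v)) = (1 / 2 : ℝ) • y + (1 / 4 : ℝ) • v
      by module, map_add, map_smul, map_smul, smul_eq_mul, smul_eq_mul] at h1
    have h2 : 1 / 32 ≤ q v := by linarith [hqy hq]
    rw [hqu, div_eq_mul_one_div]
    exact mul_le_mul_of_nonneg_left (by linarith) hn.le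
  rcases le_or_gt (1 / 2 + 1 / 64) ‖(1 / 2 : ℝ) • y + (1 / 4 : ℝ) • (-v)‖ with hm | hm
  · obtain ⟨w, hw, h⟩ := hk _ (hhalf v hv1)
    refine ⟨w, hw, Or.inr fun δ s hδ hs hb q hq => ?_⟩
    have h1 := h δ s hs hb q hq
    rw [show y - ((1 / 2 : ℝ) • y + (1 / 4 : ℝ) • v) = (1 / 2 : ℝ) • y + (1 / 4 : ℝ) • (-v)
      by module, map_add, map_smul, map_smul, map_neg, smul_eq_mul, smul_eq_mul] at h1
    have h2 : q v ≤ -(1 / 32) := by linarith [hqy hq]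
    rw [hqu, div_eq_mul_one_div, neg_mul_eq_mul_neg]
    exact mul_le_mul_of_nonneg_left (by linarith) hn.le
  have hkk : ‖y - (1 / 4 : ℝ) • (v + (1 / 8 : ℝ) • y)‖ < 1 := by
    rw [show y - (1 / 4 : ℝ) • (v + (1 / 8 : ℝ) • y) =
      ((1 / 2 : ℝ) • y + (1 / 4 : ℝ) • (-v)) + (15 / 32 : ℝ) • y by module]
    refine (norm_add_le _ _).trans_lt ?_
    rw [norm_smul, hy1, Real.norm_of_nonneg (by norm_num)]
    linarith
  obtain ⟨w, hw, h⟩ := hk _ hkk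
  refine ⟨w, hw, Or.inl fun δ s hδ hs hb q hq => ?_⟩
  have h1 := h δ s hs hb q hq
  rw [sub_sub_cancel, map_smul, map_add, map_smul q (1 / 8 : ℝ) y, smul_eq_mul, smul_eq_mul,
    norm_smul, Real.norm_of_nonneg (by norm_num)] at h1
  have h3 := norm_sub_norm_le v (-((1 / 8 : ℝ) • y))
  rw [sub_neg_eq_add, norm_neg, norm_smul (1 / 8 : ℝ) y, hy1, hv1,
    Real.norm_of_nonneg (by norm_num)] at h3
  rw [hqu, div_eq_mul_one_div]
  exact mul_le_mul_of_nonneg_left (by linarith [hqy hq]) hn.le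

variable {f}

/-- A quantity which vanishes at chords near every chord is zero. -/
lemma eq_zero_of_avail {x : X} (hx : ‖x‖ = 1) {u : Y}
    (h : ∀ e : ℝ, 0 < e → f.Avail x (fun _ q => |q u| ≤ e)) : u = 0 := by
  by_contra hu
  have hn : 0 < ‖u‖ := norm_pos_iff.2 hu
  obtain ⟨w, hw, hcase⟩ := f.exists_target hx u
  obtain ⟨ε, hε, hs⟩ := h (‖u‖ / 128) (by positivity) (1 / 256) (by norm_num)
  obtain ⟨s, hs1, hb, hk⟩ := hs w hw
  obtain ⟨p, hp⟩ := exists_supp (x - s)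
  obtain ⟨q, hq⟩ := exists_supp (f.G x - f.G s)
  have h1 := abs_le.1 (hk s hs1 ((beyond_refl x s).mono hε.le) p q hp hq)
  rcases hcase with k | k <;> linarith [k _ s le_rfl hs1 hb q hq, h1.1, h1.2]

/-- Norming in an entering direction at the source. -/
lemma Avail.cone {x : X} (hx : ‖x‖ = 1) {P : (X →L[ℝ] ℝ) → (Y →L[ℝ] ℝ) → Prop}
    (h : f.Avail x P) {w : X} (hd : dirN x (-w) < 0) {e : ℝ} (he : 0 < e) :
    ∃ p q, (∀ v, p v ≤ ‖v‖) ∧ (∀ v, q v ≤ ‖v‖) ∧ P p q ∧ ‖w‖ - e ≤ p w := by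
  obtain ⟨t, ht, hlt⟩ := exists_lt_of_dirN_neg hd
  rw [hx, smul_neg, ← sub_eq_add_neg] at hlt
  obtain ⟨T, hT, hTs⟩ := exists_beyond hx hlt
  obtain ⟨ε, hε, hs⟩ := h (e * (T * t)) (by positivity)
  obtain ⟨s, hs1, hb, hk⟩ := hs _ hTs
  obtain ⟨p, hp⟩ := exists_supp (x - s)
  obtain ⟨q, hq⟩ := exists_supp (f.G x - f.G s)
  refine ⟨p, q, hp.le, hq.le, hk s hs1 ((beyond_refl x s).mono hε.le) p q hp hq, ?_⟩
  have h1 := hb.apply hp
  rw [sub_sub_cancel, sub_sub_cancel, smul_smul, norm_smul, Real.norm_of_nonneg (by positivity),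
    map_smul, smul_eq_mul] at h1
  have h2 : T * t * (‖w‖ - e) ≤ T * t * p w := by linarith
  exact le_of_mul_le_mul_left h2 (by positivity)

/-- Chord functionals near a given chord. -/
lemma Avail.chord {x : X} (hx : ‖x‖ = 1) {P : (X →L[ℝ] ℝ) → (Y →L[ℝ] ℝ) → Prop}
    (h : f.Avail x P) {w : X} (hw : ‖w‖ = 1) {e : ℝ} (he : 0 < e) :
    ∃ p q, (∀ v, p v ≤ ‖v‖) ∧ (∀ v, q v ≤ ‖v‖) ∧ P p q ∧ ‖x - w‖ - e ≤ p (x - w) ∧
      ‖x - w‖ - e ≤ q (f.G x - f.G w) := by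
  obtain ⟨ε, hε, hs⟩ := h e he
  obtain ⟨s, hs1, hb, hk⟩ := hs w hw
  obtain ⟨p, hp⟩ := exists_supp (x - s)
  obtain ⟨q, hq⟩ := exists_supp (f.G x - f.G s)
  refine ⟨p, q, hp.le, hq.le, hk s hs1 ((beyond_refl x s).mono hε.le) p q hp hq, hb.apply hp, ?_⟩
  have := ((f.beyond_G hx hw hs1).2 hb).apply hq
  rwa [f.dist_unit hx hw] at this

end PIso

end Vale.Agent.P084.Orbit
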